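import Mathlib

/-!
P318, stage 3, K3: involutions in alternating groups.
-/

namespace Vale.Agent.P318.R2.H678

open Equiv Equiv.Perm Finset

variable {n : ℕ}

theorem ct_inv {v : Perm (Fin n)} (hv : v * v = 1) :
    v.cycleType = Multiset.replicate (Multiset.card v.cycleType) 2 := by
  refine Multiset.eq_replicate_card.2 (fun k hk => ?_)
  have h1 : k ∣ orderOf v := dvd_of_mem_cycleType hk
  have h2 : orderOf v ∣ 2 := orderOf_dvd_of_pow_eq_one (by rw [pow_two, hv])
  exact le_antisymm (Nat.le_of_dvd two_pos (h1.trans h2)) (two_le_of_mem_cycleType hk)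

theorem card_supp_inv {v : Perm (Fin n)} (hv : v * v = 1) :
    v.support.card = 2 * Multiset.card v.cycleType := by
  have h := congrArg Multiset.sum (ct_inv hv)
  rw [sum_cycleType, Multiset.sum_replicate, smul_eq_mul] at h
  rw [h, mul_comm]

theorem sign_inv {v : Perm (Fin n)} (hv : v * v = 1) :
    sign v = (-1) ^ (Multiset.card v.cycleType) := by
  rw [sign_of_cycleType, sum_cycleType, card_supp_inv hv, pow_add, pow_mul, neg_one_sq, one_pow,
    one_mul]

theorem sign_eq_one_iff {v : Perm (Fin n)} (hv : v * v = 1) :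
    sign v = 1 ↔ 4 ∣ v.support.card := by
  rw [sign_inv hv, card_supp_inv hv]
  constructor
  · intro h
    rcases Nat.even_or_odd (Multiset.card v.cycleType) with he | ho
    · obtain ⟨k, hk⟩ := he
      exact ⟨k, by omega⟩
    · rw [ho.neg_one_pow] at h
      exact absurd h (by decide)
  · rintro ⟨k, hk⟩
    have he : Even (Multiset.card v.cycleType) := ⟨k, by omega⟩
    exact he.neg_one_pow

theorem coe_sq {v : alternatingGroup (Fin n)} (hv : v * v = 1) :
    (v : Perm (Fin n)) * (v : Perm (Fin n)) = 1 := by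
  have h := congrArg (Subtype.val) hv
  exact h

/-- (c) -/
theorem four_dvd {a : alternatingGroup (Fin n)} (ha : a * a = 1) :
    4 ∣ (a : Perm (Fin n)).support.card :=
  (sign_eq_one_iff (coe_sq ha)).1 (mem_alternatingGroup.1 a.2)

/-- (a) -/
theorem conj_inv (a b : alternatingGroup (Fin n)) (ha : a * a = 1) (hb : b * b = 1)
    (h : (a : Perm (Fin n)).support.card = (b : Perm (Fin n)).support.card) : IsConj a b := by
  have ha' := coe_sq ha
  have hb' := coe_sq hb
  by_cases h1 : a = 1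
  · subst h1
    have h2 : (b : Perm (Fin n)).support.card = 0 := by rw [← h]; simp
    have h3 : (b : Perm (Fin n)) = 1 := by
      rw [Finset.card_eq_zero, support_eq_empty_iff] at h2
      exact h2
    have h4 : b = 1 := Subtype.ext h3
    rw [h4]
  have hct : (a : Perm (Fin n)).cycleType = (b : Perm (Fin n)).cycleType := by
    rw [ct_inv ha', ct_inv hb']
    have h2 := card_supp_inv ha'
    have h3 := card_supp_inv hb'
    congr 1
    omega
  obtain ⟨σ, hσ⟩ := isConj_iff.1 (isConj_iff_cycleType_eq.2 hct)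
  have h2 : ∃ x, (a : Perm (Fin n)) x ≠ x := by
    by_contra hcon
    push Not at hcon
    exact h1 (Subtype.ext (Perm.ext hcon))
  obtain ⟨x, hx⟩ := h2
  set t : Perm (Fin n) := swap x ((a : Perm (Fin n)) x) with ht
  have hat : (a : Perm (Fin n)) * t * (a : Perm (Fin n))⁻¹ = t := by
    have h3 : (a : Perm (Fin n)) ((a : Perm (Fin n)) x) = x := by
      have h4 := congrArg (fun f : Perm (Fin n) => f x) ha'
      exact h4
    have h5 := Equiv.mul_swap_eq_swap_mul (a : Perm (Fin n)) x ((a : Perm (Fin n)) x)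
    rw [h3, swap_comm ((a : Perm (Fin n)) x) x, ← ht] at h5
    rw [h5, mul_inv_cancel_right]
  have hta : t * (a : Perm (Fin n)) * t⁻¹ = (a : Perm (Fin n)) := by
    have h6 : (a : Perm (Fin n)) * t = t * (a : Perm (Fin n)) := by
      rw [mul_inv_eq_iff_eq_mul] at hat
      exact hat
    rw [← h6, mul_inv_cancel_right]
  have hsg : sign t = -1 := sign_swap (Ne.symm hx)
  rcases Int.units_eq_one_or (sign σ) with hs | hs
  · rw [isConj_iff]
    exact ⟨⟨σ, mem_alternatingGroup.2 hs⟩, Subtype.ext hσ⟩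
  · rw [isConj_iff]
    refine ⟨⟨σ * t, mem_alternatingGroup.2 ?_⟩, Subtype.ext ?_⟩
    · rw [Perm.sign_mul, hs, hsg]
      decide
    · change (σ * t) * (a : Perm (Fin n)) * (σ * t)⁻¹ = b
      rw [← hσ]
      conv_rhs => rw [← hta]
      group

/-- the restriction of an involution to an invariant set -/
theorem split_perm {v : Perm (Fin n)} (hv : v * v = 1) {A : Finset (Fin n)}
    (hA : ∀ x, x ∈ A → v x ∈ A) :
    ∃ v1 v2 : Perm (Fin n), v1 * v1 = 1 ∧ v2 * v2 = 1 ∧ v = v1 * v2 ∧
      v1.support = v.support ∩ A ∧ v2.support = v.support \ A := by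
  have hvv : ∀ x, v (v x) = x := fun x => congrArg (fun f : Perm (Fin n) => f x) hv
  have hA' : ∀ x, x ∉ A → v x ∉ A := by
    intro x hx h
    apply hx
    have := hA _ h
    rwa [hvv] at this
  have i1 : Function.Involutive (fun x => if x ∈ A then v x else x) := by
    intro x
    by_cases hx : x ∈ A
    · simp [hx, hA x hx, hvv]
    · simp [hx]
  have i2 : Function.Involutive (fun x => if x ∈ A then x else v x) := by
    intro x
    by_cases hx : x ∈ A
    · simp [hx]
    · simp [hx, hA' x hx, hvv]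
  refine ⟨i1.toPerm _, i2.toPerm _, ?_, ?_, ?_, ?_, ?_⟩
  · ext x
    exact congrArg Fin.val (i1 x)
  · ext x
    exact congrArg Fin.val (i2 x)
  · ext x
    by_cases hx : x ∈ A
    · simp [Function.Involutive.toPerm, hx]
    · simp [Function.Involutive.toPerm, hx, hA' x hx]
  · ext x
    rw [mem_support, Finset.mem_inter, mem_support]
    by_cases hx : x ∈ A
    · simp [Function.Involutive.toPerm, hx]
    · simp [Function.Involutive.toPerm, hx]
  · ext x
    rw [mem_support, Finset.mem_sdiff, mem_support]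
    by_cases hx : x ∈ A
    · simp [Function.Involutive.toPerm, hx]
    · simp [Function.Involutive.toPerm, hx]

theorem exists_inv_set {v : Perm (Fin n)} (hv : v * v = 1) (j : ℕ)
    (hj : 4 * j ≤ v.support.card) :
    ∃ A : Finset (Fin n), A ⊆ v.support ∧ (∀ x, x ∈ A → v x ∈ A) ∧ A.card = 4 * j := by
  have hvv : ∀ x, v (v x) = x := fun x => congrArg (fun f : Perm (Fin n) => f x) hv
  set H := v.support.filter (fun x => x < v x) with hH
  have hdis : ∀ B : Finset (Fin n), B ⊆ H → Disjoint B (B.image v) := by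
    intro B hB
    rw [Finset.disjoint_left]
    intro x hx hx'
    obtain ⟨y, hy, rfl⟩ := Finset.mem_image.1 hx'
    have h1 := (Finset.mem_filter.1 (hB hx)).2
    have h2 := (Finset.mem_filter.1 (hB hy)).2
    rw [hvv] at h1
    exact absurd h1 (not_lt.2 h2.le)
  have hcard : ∀ B : Finset (Fin n), B ⊆ H → (B ∪ B.image v).card = 2 * B.card := by
    intro B hB
    rw [Finset.card_union_of_disjoint (hdis B hB), Finset.card_image_of_injective _ v.injective]
    ring
  have hsup : v.support = H ∪ H.image v := by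
    ext x
    rw [Finset.mem_union, Finset.mem_image]
    constructor
    · intro hx
      rcases lt_or_gt_of_ne (mem_support.1 hx) with h1 | h1
      · right
        refine ⟨v x, Finset.mem_filter.2 ⟨?_, ?_⟩, hvv x⟩
        · rw [mem_support, hvv]
          exact (mem_support.1 hx).symm
        · rw [hvv]
          exact h1
      · left
        exact Finset.mem_filter.2 ⟨hx, h1⟩
    · rintro (hx | ⟨y, hy, rfl⟩)
      · exact (Finset.mem_filter.1 hx).1
      · rw [mem_support, hvv]
        exact (mem_support.1 (Finset.mem_filter.1 hy).1).symm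
  have hc := hcard H (Finset.Subset.refl _)
  rw [← hsup] at hc
  obtain ⟨B, hB, hBc⟩ := Finset.exists_subset_card_eq (s := H) (n := 2 * j) (by omega)
  refine ⟨B ∪ B.image v, ?_, ?_, ?_⟩
  · rw [hsup]
    exact Finset.union_subset_union hB (Finset.image_subset_image hB)
  · intro x hx
    rw [Finset.mem_union, Finset.mem_image] at hx ⊢
    rcases hx with hx | ⟨y, hy, rfl⟩
    · exact Or.inr ⟨x, hx, rfl⟩
    · left
      rwa [hvv]
  · rw [hcard B hB, hBc]
    ring

/-- (d) -/
theorem split_inv (v : alternatingGroup (Fin n)) (hv : v * v = 1) (j : ℕ)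
    (hj : 4 * j ≤ (v : Perm (Fin n)).support.card) :
    ∃ v1 v2 : alternatingGroup (Fin n), v1 * v1 = 1 ∧ v2 * v2 = 1 ∧ v = v1 * v2 ∧
      (v1 : Perm (Fin n)).support.card = 4 * j ∧
      (v2 : Perm (Fin n)).support.card + 4 * j = (v : Perm (Fin n)).support.card := by
  have hv' := coe_sq hv
  obtain ⟨A, hA1, hA2, hA3⟩ := exists_inv_set hv' j hj
  obtain ⟨v1, v2, h1, h2, h3, h4, h5⟩ := split_perm hv' hA2
  rw [Finset.inter_eq_right.2 hA1] at h4
  have hs1 : sign v1 = 1 := (sign_eq_one_iff h1).2 (by rw [h4, hA3]; exact Dvd.intro _ rfl)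
  have hs2 : sign v2 = 1 := by
    have h6 : sign (v : Perm (Fin n)) = sign v1 * sign v2 := by rw [h3, Perm.sign_mul]
    rw [mem_alternatingGroup.1 v.2, hs1, one_mul] at h6
    exact h6.symm
  refine ⟨⟨v1, mem_alternatingGroup.2 hs1⟩, ⟨v2, mem_alternatingGroup.2 hs2⟩, Subtype.ext h1,
    Subtype.ext h2, Subtype.ext h3, ?_, ?_⟩
  · change v1.support.card = 4 * j
    rw [h4, hA3]
  · change v2.support.card + 4 * j = _
    rw [h5, ← hA3, Finset.card_sdiff_add_card_eq_card hA1]

/-- the diagonal embedding of permutations of four points -/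
noncomputable def emb4 {j : ℕ} (ι : Fin j × Fin 4 ↪ Fin n) : Perm (Fin 4) →* Perm (Fin n) where
  toFun x := viaEmbeddingHom ι ((Equiv.refl (Fin j)).prodCongr x)
  map_one' := by
    have e : ((Equiv.refl (Fin j)).prodCongr (1 : Perm (Fin 4))) = (1 : Perm (Fin j × Fin 4)) := by
      ext p <;> rfl
    rw [e, map_one]
  map_mul' x y := by
    have e : ((Equiv.refl (Fin j)).prodCongr (x * y))
        = ((Equiv.refl (Fin j)).prodCongr x : Perm (Fin j × Fin 4))
          * ((Equiv.refl (Fin j)).prodCongr y) := by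
      ext p <;> rfl
    rw [e, map_mul]

theorem emb4_apply {j : ℕ} (ι : Fin j × Fin 4 ↪ Fin n) (x : Perm (Fin 4)) (p : Fin j × Fin 4) :
    emb4 ι x (ι p) = ι (p.1, x p.2) := by
  change viaEmbeddingHom ι ((Equiv.refl (Fin j)).prodCongr x) (ι p) = _
  rw [viaEmbeddingHom_apply, viaEmbedding_apply]
  rfl

theorem emb4_apply_not {j : ℕ} (ι : Fin j × Fin 4 ↪ Fin n) (x : Perm (Fin 4)) {y : Fin n}
    (hy : y ∉ Set.range ι) : emb4 ι x y = y := by
  change viaEmbeddingHom ι ((Equiv.refl (Fin j)).prodCongr x) y = _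
  rw [viaEmbeddingHom_apply, viaEmbedding_apply_of_notMem _ _ _ hy]

/-- (b) -/
theorem comm_inv (S : Finset (Fin n)) (j : ℕ) (hj : 4 * j ≤ S.card) :
    ∃ a b : alternatingGroup (Fin n), (a : Perm (Fin n)).support ⊆ S ∧
      (b : Perm (Fin n)).support ⊆ S ∧
      (a * b * a⁻¹ * b⁻¹) * (a * b * a⁻¹ * b⁻¹) = 1 ∧
      ((a * b * a⁻¹ * b⁻¹ : alternatingGroup (Fin n)) : Perm (Fin n)).support.card = 4 * j := by
  obtain ⟨κ⟩ : Nonempty (Fin j × Fin 4 ↪ S) :=
    Function.Embedding.nonempty_of_card_le (by simp; omega)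
  set ι : Fin j × Fin 4 ↪ Fin n := κ.trans (Function.Embedding.subtype _) with hι
  have hιS : ∀ p, ι p ∈ S := fun p => (κ p).2
  let a0 : Perm (Fin 4) := swap 0 1 * swap 1 2
  let b0 : Perm (Fin 4) := swap 0 1 * swap 2 3
  let d0 : Perm (Fin 4) := swap 0 2 * swap 0 1 * swap 0 3
  have hd0 : d0 * d0 = b0 := by decide
  have ha0 : (a0 * a0) * (a0 * a0) = a0 := by decide
  have hsq : (a0 * b0 * a0⁻¹ * b0⁻¹) * (a0 * b0 * a0⁻¹ * b0⁻¹) = 1 := by decide
  have hnf : ∀ i, (a0 * b0 * a0⁻¹ * b0⁻¹) i ≠ i := by decide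
  have hsa : sign (emb4 ι a0) = 1 := by
    rw [← ha0, map_mul, Perm.sign_mul]
    exact Int.units_mul_self _
  have hsb : sign (emb4 ι b0) = 1 := by
    rw [← hd0, map_mul, Perm.sign_mul]
    exact Int.units_mul_self _
  have hsub : ∀ x : Perm (Fin 4), (emb4 ι x).support ⊆ S := by
    intro x y hy
    by_contra hyS
    have h1 : y ∉ Set.range ι := by
      rintro ⟨p, rfl⟩
      exact hyS (hιS p)
    exact (mem_support.1 hy) (emb4_apply_not ι x h1)
  have hcoe : (emb4 ι a0) * (emb4 ι b0) * (emb4 ι a0)⁻¹ * (emb4 ι b0)⁻¹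
      = emb4 ι (a0 * b0 * a0⁻¹ * b0⁻¹) := by
    simp only [map_mul, map_inv]
  refine ⟨⟨emb4 ι a0, mem_alternatingGroup.2 hsa⟩, ⟨emb4 ι b0, mem_alternatingGroup.2 hsb⟩,
    hsub a0, hsub b0, Subtype.ext ?_, ?_⟩
  · change ((emb4 ι a0) * (emb4 ι b0) * (emb4 ι a0)⁻¹ * (emb4 ι b0)⁻¹)
      * ((emb4 ι a0) * (emb4 ι b0) * (emb4 ι a0)⁻¹ * (emb4 ι b0)⁻¹) = 1
    rw [hcoe, ← map_mul, hsq, map_one]
  · change ((emb4 ι a0) * (emb4 ι b0) * (emb4 ι a0)⁻¹ * (emb4 ι b0)⁻¹).support.card = 4 * j
    rw [hcoe]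
    have h1 : (emb4 ι (a0 * b0 * a0⁻¹ * b0⁻¹)).support
        = (univ : Finset (Fin j × Fin 4)).map ι := by
      ext y
      rw [mem_support, Finset.mem_map]
      constructor
      · intro hy
        by_contra hcon
        apply hy
        apply emb4_apply_not
        rintro ⟨p, rfl⟩
        exact hcon ⟨p, mem_univ _, rfl⟩
      · rintro ⟨p, _, rfl⟩
        rw [emb4_apply]
        intro h2
        have h3 := congrArg Prod.snd (ι.injective h2)
        exact hnf p.2 h3
    rw [h1, Finset.card_map, Finset.card_univ, Fintype.card_prod, Fintype.card_fin,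
      Fintype.card_fin, mul_comm]

end Vale.Agent.P318.R2.H678
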