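import Vale.Agent.P318.R2.H678.Spec

/-!
P318, wave 3, module S, second half: the eigenvalues of a common eigenvector of the class
averages are a normalised character: class function, functional equation, positive
definiteness, and nonlinearity on the functions with zero coset sums.
-/

namespace Vale.Agent.P318.R2.H678

open Finset Module

set_option linter.unusedSectionVars false

variable {G : Type*} [Group G] [Fintype G]

theorem T_conj (g h : G) (f : EuclideanSpace ℂ G) : T (h * g * h⁻¹) f = T g f := by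
  rw [T_apply, T_apply]
  congr 1
  refine Fintype.sum_equiv (Equiv.mulRight h) _ _ (fun y => ?_)
  congr 2
  simp [mul_assoc]

theorem T_T (g h : G) (f : EuclideanSpace ℂ G) :
    T g (T h f) = (Fintype.card G : ℂ)⁻¹ • ∑ x : G, T (g * (x * h * x⁻¹)) f := by
  have h1 : ∀ y : G, R (y * g * y⁻¹) (T h f)
      = (Fintype.card G : ℂ)⁻¹ • ∑ x : G, R (y * (g * (x * h * x⁻¹)) * y⁻¹) f := by
    intro y
    rw [T_apply, map_smul, map_sum]
    congr 1
    refine (Fintype.sum_equiv (Equiv.mulLeft y) _ _ (fun x => ?_)).symm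
    rw [R_R]
    congr 2
    simp only [Equiv.coe_mulLeft]
    group
  rw [T_apply g, Finset.sum_congr rfl (fun y _ => h1 y), ← Finset.smul_sum, Finset.sum_comm,
    Finset.smul_sum]
  congr 1
  refine Finset.sum_congr rfl (fun x _ => ?_)
  rw [T_apply]

section data

variable {α : G → ℂ} {ξ : EuclideanSpace ℂ G}

theorem ne_zero_of (hn : ‖ξ‖ = 1) : ξ ≠ 0 := by
  intro h
  rw [h, norm_zero] at hn
  exact zero_ne_one hn

theorem alpha_conj (hn : ‖ξ‖ = 1) (hT : ∀ g, T g ξ = α g • ξ) (g h : G) :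
    α (h * g * h⁻¹) = α g := by
  have h1 : α (h * g * h⁻¹) • ξ = α g • ξ := by rw [← hT, ← hT, T_conj]
  exact smul_left_injective ℂ (ne_zero_of hn) h1

theorem alpha_mul (hn : ‖ξ‖ = 1) (hT : ∀ g, T g ξ = α g • ξ) (g h : G) :
    α g * α h = (Fintype.card G : ℂ)⁻¹ * ∑ x : G, α (g * (x * h * x⁻¹)) := by
  have h1 : (α g * α h) • ξ
      = ((Fintype.card G : ℂ)⁻¹ * ∑ x : G, α (g * (x * h * x⁻¹))) • ξ := by
    have h2 := T_T g h ξ
    rw [hT h, map_smul, hT g, smul_smul, mul_comm (α h)] at h2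
    rw [h2, Finset.sum_congr rfl (fun x _ => hT (g * (x * h * x⁻¹))), ← Finset.sum_smul,
      smul_smul]
  exact smul_left_injective ℂ (ne_zero_of hn) h1

theorem alpha_one (hn : ‖ξ‖ = 1) (hT : ∀ g, T g ξ = α g • ξ) : α 1 = 1 := by
  have h1 : α 1 • ξ = (1 : ℂ) • ξ := by
    rw [← hT, T_apply, one_smul]
    have h2 : ∀ y : G, R (y * 1 * y⁻¹) ξ = ξ := by
      intro y
      rw [mul_one, mul_inv_cancel, R_one]
    rw [Finset.sum_congr rfl (fun y _ => h2 y), Finset.sum_const, Finset.card_univ,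
      ← Nat.cast_smul_eq_nsmul ℂ, smul_smul,
      inv_mul_cancel₀ (by exact_mod_cast Fintype.card_ne_zero), one_smul]
  exact smul_left_injective ℂ (ne_zero_of hn) h1

/-- The vectors of the direct sum. -/
noncomputable def zeta (ξ : EuclideanSpace ℂ G) (y : G) : EuclideanSpace ℂ G :=
  (((Real.sqrt (Fintype.card G))⁻¹ : ℝ) : ℂ) • R y⁻¹ ξ

theorem sum_zeta (hn : ‖ξ‖ = 1) : ∑ y : G, ‖zeta ξ y‖ ^ 2 = 1 := by
  have h0 : (0 : ℝ) < Fintype.card G := by exact_mod_cast Fintype.card_pos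
  have h1 : ∀ y : G, ‖zeta ξ y‖ ^ 2 = (Fintype.card G : ℝ)⁻¹ := by
    intro y
    rw [zeta, norm_smul, norm_R, hn, mul_one, Complex.norm_real, Real.norm_eq_abs, sq_abs,
      inv_pow, Real.sq_sqrt h0.le]
  rw [Finset.sum_congr rfl (fun y _ => h1 y), Finset.sum_const, Finset.card_univ,
    nsmul_eq_mul, mul_inv_cancel₀ h0.ne']

theorem alpha_eq_sum (hn : ‖ξ‖ = 1) (hT : ∀ g, T g ξ = α g • ξ) (g : G) :
    α g = ∑ y : G, inner ℂ (zeta ξ y) (R g (zeta ξ y)) := by
  have h0 : (0 : ℝ) < Fintype.card G := by exact_mod_cast Fintype.card_pos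
  have h1 : α g = inner ℂ ξ (T g ξ) := by
    rw [hT, inner_smul_right, inner_self_eq_norm_sq_to_K, hn]
    simp
  rw [h1, T_apply, inner_smul_right, inner_sum, Finset.mul_sum]
  refine Finset.sum_congr rfl (fun y _ => ?_)
  have e2 : (((Real.sqrt (Fintype.card G))⁻¹ : ℝ) : ℂ)
      * (((Real.sqrt (Fintype.card G))⁻¹ : ℝ) : ℂ) = (Fintype.card G : ℂ)⁻¹ := by
    rw [← Complex.ofReal_mul, ← mul_inv, Real.mul_self_sqrt h0.le]
    push_cast
    rfl
  have e : y⁻¹ * (y * g * y⁻¹) = g * y⁻¹ := by group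
  rw [zeta, map_smul, inner_smul_left, inner_smul_right, Complex.conj_ofReal, R_R,
    ← inner_R y⁻¹ ξ, R_R, e, ← e2, mul_assoc]

/-- Explicit form of positive definiteness. -/
theorem alpha_eq_sum' (hn : ‖ξ‖ = 1) (hT : ∀ g, T g ξ = α g • ξ) (g : G) :
    α g = ∑ y : G, ∑ x : G, (starRingEnd ℂ) (zeta ξ y x) * zeta ξ y (x * g) := by
  rw [alpha_eq_sum hn hT g]
  refine Finset.sum_congr rfl (fun y _ => ?_)
  rw [PiLp.inner_apply]
  refine Finset.sum_congr rfl (fun x _ => ?_)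
  rw [RCLike.inner_apply, R_apply, mul_comm]

/-- The dispersion identity. -/
theorem dispersion (hn : ‖ξ‖ = 1) (hT : ∀ g, T g ξ = α g • ξ) (g : G) :
    ∑ y : G, ‖R (y * g * y⁻¹) ξ - α g • ξ‖ ^ 2 = Fintype.card G * (1 - ‖α g‖ ^ 2) := by
  have h0 : (Fintype.card G : ℂ) ≠ 0 := by exact_mod_cast Fintype.card_ne_zero
  have h1 : ∀ y : G, ‖R (y * g * y⁻¹) ξ - α g • ξ‖ ^ 2
      = 1 + ‖α g‖ ^ 2 - 2 * (inner ℂ (α g • ξ) (R (y * g * y⁻¹) ξ)).re := by
    intro y
    rw [@norm_sub_sq ℂ, norm_R, norm_smul, hn]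
    have h3 : RCLike.re (inner ℂ (R (y * g * y⁻¹) ξ) (α g • ξ))
        = (inner ℂ (α g • ξ) (R (y * g * y⁻¹) ξ)).re := inner_re_symm (𝕜 := ℂ) _ _
    rw [h3]
    ring
  have h2 : ∑ y : G, R (y * g * y⁻¹) ξ = (Fintype.card G : ℂ) • (α g • ξ) := by
    rw [← hT, T_apply, smul_smul, mul_inv_cancel₀ h0, one_smul]
  have h4 : ∑ y : G, (inner ℂ (α g • ξ) (R (y * g * y⁻¹) ξ)).re
      = Fintype.card G * ‖α g‖ ^ 2 := by
    rw [← Complex.re_sum, ← inner_sum, h2, inner_smul_right, inner_self_eq_norm_sq_to_K,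
      norm_smul, hn, mul_one]
    have h5 : (Fintype.card G : ℂ) * ((‖α g‖ : ℝ) : ℂ) ^ 2
        = ((Fintype.card G * ‖α g‖ ^ 2 : ℝ) : ℂ) := by push_cast; ring
    exact (congrArg Complex.re h5).trans (Complex.ofReal_re _)
  rw [Finset.sum_congr rfl (fun y _ => h1 y), Finset.sum_sub_distrib, ← Finset.mul_sum, h4,
    Finset.sum_const, Finset.card_univ, nsmul_eq_mul]
  ring

theorem norm_alpha_le (hn : ‖ξ‖ = 1) (hT : ∀ g, T g ξ = α g • ξ) (g : G) : ‖α g‖ ≤ 1 := by
  have h0 : (0 : ℝ) < Fintype.card G := by exact_mod_cast Fintype.card_pos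
  have h1 := dispersion hn hT g
  have h2 : (0 : ℝ) ≤ ∑ y : G, ‖R (y * g * y⁻¹) ξ - α g • ξ‖ ^ 2 :=
    Finset.sum_nonneg (fun y _ => by positivity)
  rw [h1] at h2
  have h3 : 0 ≤ 1 - ‖α g‖ ^ 2 := by
    by_contra h
    push Not at h
    have := mul_neg_of_pos_of_neg h0 h
    linarith
  nlinarith [norm_nonneg (α g)]

theorem R_eq_of_norm_one (hn : ‖ξ‖ = 1) (hT : ∀ g, T g ξ = α g • ξ) {g : G}
    (h : ‖α g‖ = 1) : R g ξ = α g • ξ := by
  have h1 := dispersion hn hT g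
  rw [h, one_pow, sub_self, mul_zero, Finset.sum_eq_zero_iff_of_nonneg
    (fun y _ => by positivity)] at h1
  have h2 := h1 1 (Finset.mem_univ _)
  rw [one_mul, inv_one, mul_one] at h2
  exact sub_eq_zero.mp (norm_eq_zero.mp (pow_eq_zero_iff (two_ne_zero)|>.mp h2))

/-- Nonlinearity. -/
theorem nonlinear [Fintype (commutator G)] (hn : ‖ξ‖ = 1) (hV : ξ ∈ V G)
    (hT : ∀ g, T g ξ = α g • ξ) : ∃ g, ‖α g‖ ≠ 1 := by
  by_contra hall
  push Not at hall
  have hR : ∀ g, R g ξ = α g • ξ := fun g => R_eq_of_norm_one hn hT (hall g)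
  have hmul : ∀ g h, α (g * h) = α g * α h := by
    intro g h
    have h1 : α (g * h) • ξ = (α g * α h) • ξ := by
      rw [← hR, ← R_R, hR h, map_smul, hR g, smul_smul, mul_comm]
    exact smul_left_injective ℂ (ne_zero_of hn) h1
  let F : G →* ℂ := { toFun := α, map_one' := alpha_one hn hT, map_mul' := hmul }
  have hk : ∀ k ∈ commutator G, α k = 1 := by
    intro k hk
    have h1 : k ∈ F.toHomUnits.ker := Abelianization.commutator_subset_ker F.toHomUnits hk
    have h2 := congrArg Units.val (MonoidHom.mem_ker.mp h1)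
    simpa [F] using h2
  refine ne_zero_of hn ?_
  ext x
  have h1 := mem_V.mp hV x
  have h2 : ∀ k : commutator G, ξ (x * k) = ξ x := by
    intro k
    have h3 := congrArg (fun f : EuclideanSpace ℂ G => f x) (hR (k : G))
    have h4 : ξ (x * k) = α k * ξ x := h3
    rw [h4, hk k k.2, one_mul]
  rw [Finset.sum_congr rfl (fun k _ => h2 k), Finset.sum_const, Finset.card_univ,
    nsmul_eq_mul] at h1
  rcases mul_eq_zero.mp h1 with h5 | h5
  · exact absurd h5 (by exact_mod_cast Fintype.card_ne_zero)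
  · exact h5

end data

end Vale.Agent.P318.R2.H678
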