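import Vale.Agent.P318.R2.H356.Chr
import Vale.Agent.P318.R2.H678.SpecB

/-!
P318, wave 3, module S: the spectral step, in the interface of `R2/H356/Chr.lean`.
-/

namespace Vale.Agent.P318.R2.H678

open Finset
open Vale.Agent.P318.R2.H356 (IsChr Sp U U_apply)

variable {G : Type*} [Group G] [Fintype G]

/-- A common eigenvector of the class averages gives a normalised character. -/
theorem isChr_of {α : G → ℂ} {ξ : EuclideanSpace ℂ G} (hn : ‖ξ‖ = 1)
    (hT : ∀ g, T g ξ = α g • ξ) : IsChr α where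
  rep := by
    refine ⟨WithLp.toLp 2 (fun p : G × G => zeta ξ p.1 p.2), fun g => ?_⟩
    rw [alpha_eq_sum' hn hT g, PiLp.inner_apply, Fintype.sum_prod_type]
    refine Finset.sum_congr rfl (fun y _ => Finset.sum_congr rfl (fun x _ => ?_))
    rw [RCLike.inner_apply, U_apply, mul_comm]
  one := alpha_one hn hT
  cls x g := alpha_conj hn hT g x
  mul g h := by
    rw [alpha_mul hn hT g h, ← mul_assoc,
      mul_inv_cancel₀ (by exact_mod_cast Fintype.card_ne_zero), one_mul]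

/-- The spectral step. -/
theorem specChr [Fintype (commutator G)] {c : G → ℝ} (hs : ∀ g, c g⁻¹ = c g)
    (hcl : ∀ x g, c (x * g * x⁻¹) = c g)
    (hne : ∃ f : G → ℂ, f ≠ 0 ∧ ∀ x, ∑ h : commutator G, f (x * h) = 0) :
    ∃ α : G → ℂ, IsChr α ∧ (∃ g, ‖α g‖ ≠ 1) ∧
      ∀ f : G → ℂ, (∀ x, ∑ h : commutator G, f (x * h) = 0) →
        2 * (∑ g, c g * (1 - (α g).re)) * ∑ x, ‖f x‖ ^ 2
          ≤ ∑ g, c g * ∑ x, ‖f (x * g) - f x‖ ^ 2 := by
  obtain ⟨f0, hf0, hf0'⟩ := hne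
  have h1 : (WithLp.toLp 2 f0 : EuclideanSpace ℂ G) ≠ 0 := by
    intro h
    apply hf0
    funext x
    exact congrArg (fun f : EuclideanSpace ℂ G => f x) h
  have h2 : (WithLp.toLp 2 f0 : EuclideanSpace ℂ G) ∈ V G := mem_V.mpr hf0'
  obtain ⟨α, ξ, hn, hV, hT, hE⟩ := spec hs (fun g h => hcl h g) h1 h2
  refine ⟨α, isChr_of hn hT, nonlinear hn hV hT, fun f hf => ?_⟩
  have h3 := hE (WithLp.toLp 2 f) (mem_V.mpr hf)
  rw [EuclideanSpace.norm_sq_eq] at h3
  exact h3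

end Vale.Agent.P318.R2.H678
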