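import Vale.Agent.P318.R2.H678.GapDef

/-!
P318, stage 4: the character ratio gap for a representation with invariants.
-/

namespace Vale.Agent.P318.R2.H678

open Finset Module

set_option linter.unusedSectionVars false

variable {T : Type*} [Group T] [Fintype T] {V : Type*} [AddCommGroup V] [Module ℂ V]
  [FiniteDimensional ℂ V]

/-- the average of a representation -/
noncomputable def avg (ρ : Representation ℂ T V) : V →ₗ[ℂ] V :=
  (Fintype.card T : ℂ)⁻¹ • ∑ t : T, ρ t

theorem cardT_ne : (Fintype.card T : ℂ) ≠ 0 := Nat.cast_ne_zero.2 Fintype.card_ne_zero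

theorem rho_avg (ρ : Representation ℂ T V) (x : T) : ρ x ∘ₗ avg ρ = avg ρ := by
  ext v
  simp only [avg, LinearMap.comp_apply, LinearMap.smul_apply, LinearMap.sum_apply, map_smul,
    map_sum]
  congr 1
  refine Fintype.sum_equiv (Equiv.mulLeft x) _ _ (fun t => ?_)
  simp [map_mul]

theorem avg_rho (ρ : Representation ℂ T V) (x : T) : avg ρ ∘ₗ ρ x = avg ρ := by
  ext v
  simp only [avg, LinearMap.comp_apply, LinearMap.smul_apply, LinearMap.sum_apply]
  congr 1
  refine Fintype.sum_equiv (Equiv.mulRight x) _ _ (fun t => ?_)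
  simp [map_mul]

theorem avg_fix (ρ : Representation ℂ T V) {v : V} (h : ∀ t, ρ t v = v) : avg ρ v = v := by
  simp only [avg, LinearMap.smul_apply, LinearMap.sum_apply, h, Finset.sum_const,
    Finset.card_univ]
  rw [← Nat.cast_smul_eq_nsmul ℂ, smul_smul, inv_mul_cancel₀ cardT_ne, one_smul]

theorem avg_avg (ρ : Representation ℂ T V) (v : V) : avg ρ (avg ρ v) = avg ρ v :=
  avg_fix ρ (fun t => congrArg (fun f : V →ₗ[ℂ] V => f v) (rho_avg ρ t))

theorem trace_avg (ρ : Representation ℂ T V) :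
    LinearMap.trace ℂ V (avg ρ)
      = (Fintype.card T : ℂ)⁻¹ * ∑ t : T, LinearMap.trace ℂ V (ρ t) := by
  rw [avg, map_smul, map_sum, smul_eq_mul]

theorem rho_ker (ρ : Representation ℂ T V) (x : T) :
    ∀ v ∈ LinearMap.ker (avg ρ), ρ x v ∈ LinearMap.ker (avg ρ) := by
  intro v hv
  rw [LinearMap.mem_ker] at hv ⊢
  have h := congrArg (fun f : V →ₗ[ℂ] V => f v) (avg_rho ρ x)
  exact h.trans hv

/-- the part of a representation without invariants -/
noncomputable def kerRep (ρ : Representation ℂ T V) :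
    Representation ℂ T (LinearMap.ker (avg ρ)) where
  toFun x := (ρ x).restrict (rho_ker ρ x)
  map_one' := by
    ext v
    simp
  map_mul' x y := by
    ext v
    simp

theorem kerRep_apply (ρ : Representation ℂ T V) (x : T) (v : LinearMap.ker (avg ρ)) :
    ((kerRep ρ x v : LinearMap.ker (avg ρ)) : V) = ρ x v := rfl

theorem trace_kerRep (ρ : Representation ℂ T V) (x : T) :
    LinearMap.trace ℂ _ (kerRep ρ x)
      = LinearMap.trace ℂ V (ρ x) - LinearMap.trace ℂ V (avg ρ) := by
  have hf : ∀ v, (ρ x ∘ₗ (LinearMap.id - avg ρ)) v ∈ LinearMap.ker (avg ρ) := by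
    intro v
    rw [LinearMap.mem_ker]
    have h := congrArg (fun f : V →ₗ[ℂ] V => f (v - avg ρ v)) (avg_rho ρ x)
    change avg ρ (ρ x (v - avg ρ v)) = 0
    refine h.trans ?_
    rw [map_sub, avg_avg, sub_self]
  have h1 := LinearMap.trace_restrict_eq_of_forall_mem (LinearMap.ker (avg ρ)) _ hf
  have h2 : (ρ x ∘ₗ (LinearMap.id - avg ρ)).restrict (fun v _ => hf v) = kerRep ρ x := by
    ext v
    have hv : avg ρ v = 0 := v.2
    change ρ x ((v : V) - avg ρ v) = ρ x v
    rw [hv, sub_zero]
  rw [h2] at h1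
  rw [h1, LinearMap.comp_sub, map_sub, rho_avg, LinearMap.comp_id]

theorem finrank_ker (ρ : Representation ℂ T V) :
    (finrank ℂ (LinearMap.ker (avg ρ)) : ℂ)
      = finrank ℂ V - LinearMap.trace ℂ V (avg ρ) := by
  have h := trace_kerRep ρ 1
  have e1 : kerRep ρ 1 = 1 := map_one (kerRep ρ)
  have e2 : ρ 1 = 1 := map_one ρ
  rw [e1, e2, LinearMap.trace_one, LinearMap.trace_one] at h
  exact h

/-- The gap for a representation with invariants. -/
theorem gap_inv {κ : ℝ} (hg : Gap T κ) (ρ : Representation ℂ T V) {x : T} (hx : x ≠ 1) :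
    (LinearMap.trace ℂ V (ρ x)).re - (LinearMap.trace ℂ V (avg ρ)).re
      ≤ (1 - κ) * (finrank ℂ V - (LinearMap.trace ℂ V (avg ρ)).re) := by
  set b := finBasis ℂ (LinearMap.ker (avg ρ)) with hb
  let ρm : T →* Matrix (Fin (finrank ℂ (LinearMap.ker (avg ρ))))
      (Fin (finrank ℂ (LinearMap.ker (avg ρ)))) ℂ :=
    ((LinearMap.toMatrixAlgEquiv b : _ ≃ₐ[ℂ] _) : _ →* _).comp (kerRep ρ)
  have hρm : ∀ y, ρm y = LinearMap.toMatrix b b (kerRep ρ y) := fun y => rfl
  have h1 := hg _ ρm ?_ x hx
  · rw [hρm, ← LinearMap.trace_eq_matrix_trace, trace_kerRep, Complex.sub_re] at h1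
    have h2 := congrArg Complex.re (finrank_ker ρ)
    rw [Complex.natCast_re, Complex.sub_re, Complex.natCast_re] at h2
    rw [h2] at h1
    exact h1
  · intro v hv
    set w := b.equivFun.symm v with hw
    have hrw : (b.repr w : Fin _ → ℂ) = v := by
      rw [← Basis.equivFun_apply, hw, LinearEquiv.apply_symm_apply]
    have hfix : ∀ y, kerRep ρ y w = w := by
      intro y
      have h2 := hv y
      rw [hρm] at h2
      have h3 := LinearMap.toMatrix_mulVec_repr b b (kerRep ρ y) w
      rw [hrw, h2] at h3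
      apply b.repr.injective
      apply DFunLike.coe_injective
      rw [← h3, hrw]
    have h4 : avg ρ (w : V) = w := avg_fix ρ (fun t => congrArg Subtype.val (hfix t))
    have h5 : avg ρ (w : V) = 0 := w.2
    have h6 : w = 0 := Subtype.ext (h4.symm.trans h5)
    rw [← hrw, h6]
    simp

end Vale.Agent.P318.R2.H678
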