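import Vale.Agent.P318.R2.H356.Chr
import Vale.Agent.P318.R2.H678.GapRep

/-!
P318, stage 4: a normalised character is the normalised trace of a representation, and the
conjugation action on the endomorphisms is a representation of the quotient.
-/

namespace Vale.Agent.P318.R2.H678

open Finset Module
open scoped ComplexConjugate InnerProductSpace
open Vale.Agent.P318.R2.H356

set_option linter.unusedSectionVars false

variable {G : Type*} [Group G] [Fintype G] {α : G → ℂ}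

/-- the translations as linear maps -/
noncomputable def Ul (g : G) : Sp G →ₗ[ℂ] Sp G := (U g).toLinearEquiv.toLinearMap

theorem Ul_apply (g : G) (v : Sp G) : Ul g v = U g v := rfl

/-- the joint eigenspace of the class sums -/
noncomputable def Ks (α : G → ℂ) : Submodule ℂ (Sp G) where
  carrier := {v | ∀ x, ∑ y : G, U (y * x * y⁻¹) v = ((Fintype.card G : ℂ) * α x) • v}
  add_mem' {v w} hv hw x := by
    simp only [map_add, Finset.sum_add_distrib]
    rw [hv x, hw x, smul_add]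
  zero_mem' x := by simp
  smul_mem' a v hv x := by
    simp only [map_smul]
    rw [← Finset.smul_sum, hv x, smul_comm]

theorem mem_Ks {v : Sp G} :
    v ∈ Ks α ↔ ∀ x, ∑ y : G, U (y * x * y⁻¹) v = ((Fintype.card G : ℂ) * α x) • v := Iff.rfl

theorem cardG_ne : (Fintype.card G : ℂ) ≠ 0 := Nat.cast_ne_zero.2 Fintype.card_ne_zero

theorem xi_mem (hα : IsChr α) {ξ : Sp G} (hξ : ∀ g, α g = ⟪ξ, U g ξ⟫_ℂ) : ξ ∈ Ks α := by
  rw [mem_Ks]
  intro x
  set w : Sp G := ∑ y : G, U (y * x * y⁻¹) ξ - ((Fintype.card G : ℂ) * α x) • ξ with hw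
  have h1 : ∀ h : G, ⟪U h ξ, w⟫_ℂ = 0 := by
    intro h
    rw [hw, inner_sub_right, inner_sum, inner_smul_right]
    have e1 : ∀ y : G, ⟪U h ξ, U (y * x * y⁻¹) ξ⟫_ℂ = α (h⁻¹ * (y * x * y⁻¹)) := by
      intro y
      rw [inner_U_left, ← U_mul, hξ]
    have e2 : ⟪U h ξ, ξ⟫_ℂ = α h⁻¹ := by rw [inner_U_left, hξ]
    rw [Finset.sum_congr rfl (fun y _ => e1 y), ← hα.mul, e2]
    ring
  have h2 : ⟪w, w⟫_ℂ = 0 := by
    conv_lhs => rw [hw]
    rw [inner_sub_left, sum_inner, inner_smul_left]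
    have e3 : ⟪ξ, w⟫_ℂ = 0 := by
      have := h1 1
      rwa [U_one] at this
    rw [Finset.sum_eq_zero (fun y _ => h1 _), e3]
    ring
  exact sub_eq_zero.1 (inner_self_eq_zero.1 h2)

theorem U_mem (g : G) : ∀ v ∈ Ks α, Ul g v ∈ Ks α := by
  intro v hv
  rw [mem_Ks] at hv ⊢
  intro x
  rw [Ul_apply, ← map_smul, ← hv x, map_sum]
  refine (Fintype.sum_equiv (Equiv.mulLeft g) _ _ (fun y => ?_)).symm
  rw [← U_mul, ← U_mul]
  congr 1
  simp only [Equiv.coe_mulLeft]
  group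

/-- the representation on the joint eigenspace -/
noncomputable def rK (α : G → ℂ) : Representation ℂ G (Ks α) where
  toFun g := (Ul g).restrict (U_mem g)
  map_one' := by
    ext v
    exact congrArg (fun u : Sp G => u _) (U_one (v : Sp G))
  map_mul' g h := by
    ext v
    exact congrArg (fun u : Sp G => u _) (U_mul g h (v : Sp G))

theorem rK_apply (g : G) (v : Ks α) : ((rK α g v : Ks α) : Sp G) = U g (v : Sp G) := rfl

theorem sum_rK (x : G) :
    ∑ y : G, rK α (y * x * y⁻¹) = ((Fintype.card G : ℂ) * α x) • (1 : Ks α →ₗ[ℂ] Ks α) := by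
  apply LinearMap.ext
  intro v
  apply Subtype.ext
  have h := mem_Ks.1 v.2 x
  rw [LinearMap.sum_apply, Submodule.coe_sum]
  exact h

theorem trace_rK (x : G) :
    LinearMap.trace ℂ _ (rK α x) = α x * finrank ℂ (Ks α) := by
  have h := congrArg (LinearMap.trace ℂ (Ks α)) (sum_rK (α := α) x)
  rw [map_sum, map_smul, LinearMap.trace_one] at h
  have h1 : ∀ y : G, LinearMap.trace ℂ _ (rK α (y * x * y⁻¹)) = LinearMap.trace ℂ _ (rK α x) :=
    fun y => Representation.char_conj (rK α) x y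
  rw [Finset.sum_congr rfl (fun y _ => h1 y), Finset.sum_const, Finset.card_univ,
    nsmul_eq_mul, smul_eq_mul, mul_assoc] at h
  exact mul_left_cancel₀ cardG_ne h

theorem rK_scalar {z : G} (hz : ‖α z‖ = 1) : rK α z = α z • (1 : Ks α →ₗ[ℂ] Ks α) := by
  apply LinearMap.ext
  intro v
  apply Subtype.ext
  change U z (v : Sp G) = α z • (v : Sp G)
  set u : Sp G := (v : Sp G) with hu
  have hK := mem_Ks.1 v.2 z
  have h1 : ∀ y : G, ‖U (y * z * y⁻¹) u - α z • u‖ ^ 2
      = 2 * ‖u‖ ^ 2 - 2 * (⟪α z • u, U (y * z * y⁻¹) u⟫_ℂ).re := by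
    intro y
    rw [@norm_sub_sq ℂ, norm_U, norm_smul, hz, one_mul]
    have h3 : RCLike.re ⟪U (y * z * y⁻¹) u, α z • u⟫_ℂ
        = (⟪α z • u, U (y * z * y⁻¹) u⟫_ℂ).re := inner_re_symm (𝕜 := ℂ) _ _
    rw [h3]
    ring
  have h4 : ∑ y : G, (⟪α z • u, U (y * z * y⁻¹) u⟫_ℂ).re = Fintype.card G * ‖u‖ ^ 2 := by
    rw [← Complex.re_sum, ← inner_sum, hK, mul_smul, inner_smul_right,
      inner_self_eq_norm_sq_to_K, norm_smul, hz, one_mul]
    have h5 : (Fintype.card G : ℂ) * ((‖u‖ : ℝ) : ℂ) ^ 2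
        = ((Fintype.card G * ‖u‖ ^ 2 : ℝ) : ℂ) := by push_cast; ring
    exact (congrArg Complex.re h5).trans (Complex.ofReal_re _)
  have h2 : ∑ y : G, ‖U (y * z * y⁻¹) u - α z • u‖ ^ 2 = 0 := by
    rw [Finset.sum_congr rfl (fun y _ => h1 y), Finset.sum_sub_distrib, Finset.sum_const,
      Finset.card_univ, nsmul_eq_mul, ← Finset.mul_sum, h4]
    ring
  rw [Finset.sum_eq_zero_iff_of_nonneg (fun y _ => by positivity)] at h2
  have h3 := h2 1 (Finset.mem_univ _)
  rw [one_mul, inv_one, mul_one] at h3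
  exact sub_eq_zero.mp (norm_eq_zero.mp ((pow_eq_zero_iff two_ne_zero).mp h3))

/-- the conjugation action on the endomorphisms -/
noncomputable def lK (α : G → ℂ) : Representation ℂ G (Ks α →ₗ[ℂ] Ks α) :=
  Representation.linHom (rK α) (rK α)

theorem trace_lK (hα : IsChr α) (x : G) :
    LinearMap.trace ℂ _ (lK α x) = ((‖α x‖ ^ 2 * (finrank ℂ (Ks α) : ℝ) ^ 2 : ℝ) : ℂ) := by
  have h : LinearMap.trace ℂ _ (lK α x)
      = LinearMap.trace ℂ _ (rK α x⁻¹) * LinearMap.trace ℂ _ (rK α x) :=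
    Representation.char_linHom (rK α) (rK α) x
  rw [h, trace_rK, trace_rK, hα.inv]
  have h2 : conj (α x) * α x = ((‖α x‖ ^ 2 : ℝ) : ℂ) := by
    rw [Complex.conj_mul']
    push_cast
    rfl
  have h3 : conj (α x) * (finrank ℂ (Ks α) : ℂ) * (α x * (finrank ℂ (Ks α) : ℂ))
      = (conj (α x) * α x) * (finrank ℂ (Ks α) : ℂ) ^ 2 := by ring
  rw [h3, h2]
  push_cast
  ring

theorem lK_one (hα : IsChr α) {z : G} (hz : ‖α z‖ = 1) : lK α z = 1 := by
  apply LinearMap.ext
  intro f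
  have hz' : ‖α z⁻¹‖ = 1 := by rw [hα.norm_inv, hz]
  change (rK α z) ∘ₗ f ∘ₗ (rK α z⁻¹) = f
  rw [rK_scalar hz, rK_scalar hz']
  have h2 : α z * α z⁻¹ = 1 := by
    rw [hα.inv, Complex.mul_conj', hz]
    simp
  apply LinearMap.ext
  intro v
  change α z • (f (α z⁻¹ • v)) = f v
  rw [map_smul, smul_smul, h2, one_smul]

end Vale.Agent.P318.R2.H678
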