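import Vale.Agent.P318.R2.H378.Half
import Vale.Agent.P318.R2.H678.GapChr

/-!
P318, stage 4: from the character ratio gap of a composition factor to a lower bound for
`1 - |α x|²`.
-/

namespace Vale.Agent.P318.R2.H678

open Finset Module
open scoped ComplexConjugate InnerProductSpace
open Vale.Agent.P318.R2.H356 Vale.Agent.P318.R2.H378

set_option linter.unusedSectionVars false

theorem sum_quot {M : Type*} [Group M] [Fintype M] (R : Subgroup M) [R.Normal]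
    [Fintype (M ⧸ R)] (F : M ⧸ R → ℂ) :
    (Fintype.card (M ⧸ R) : ℂ) * ∑ x : M, F (x : M ⧸ R)
      = (Fintype.card M : ℂ) * ∑ t, F t := by
  have h1 : ∑ x : M, ∑ t : M ⧸ R, F ((x : M ⧸ R) * t) = (Fintype.card M : ℂ) * ∑ t, F t := by
    have e : ∀ x : M, ∑ t : M ⧸ R, F ((x : M ⧸ R) * t) = ∑ t, F t := fun x =>
      Fintype.sum_equiv (Equiv.mulLeft (x : M ⧸ R)) _ _ (fun t => rfl)
    rw [Finset.sum_congr rfl (fun x _ => e x), Finset.sum_const, Finset.card_univ, nsmul_eq_mul]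
  have h2 : ∑ t : M ⧸ R, ∑ x : M, F ((x : M ⧸ R) * t)
      = (Fintype.card (M ⧸ R) : ℂ) * ∑ x : M, F (x : M ⧸ R) := by
    have e : ∀ t : M ⧸ R, ∑ x : M, F ((x : M ⧸ R) * t) = ∑ x : M, F (x : M ⧸ R) := by
      intro t
      obtain ⟨y, rfl⟩ := QuotientGroup.mk_surjective t
      refine Fintype.sum_equiv (Equiv.mulRight y) _ _ (fun x => ?_)
      rfl
    rw [Finset.sum_congr rfl (fun t _ => e t), Finset.sum_const, Finset.card_univ, nsmul_eq_mul]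
  rw [← h1, ← h2, Finset.sum_comm]

variable {G : Type*} [Group G] [Fintype G] {α : G → ℂ}

/-- the action of the quotient on the endomorphisms -/
noncomputable def qK (hα : IsChr α) (L Z0 : Subgroup G) (hZ1 : ∀ z ∈ Z0, ‖α z‖ = 1)
    [(Z0.subgroupOf L).Normal] :
    Representation ℂ (L ⧸ Z0.subgroupOf L) (Ks α →ₗ[ℂ] Ks α) :=
  QuotientGroup.lift (Z0.subgroupOf L) ((lK α).comp L.subtype)
    (fun _ hz => lK_one hα (hZ1 _ (Subgroup.mem_subgroupOf.1 hz)))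

theorem qK_mk (hα : IsChr α) (L Z0 : Subgroup G) (hZ1 : ∀ z ∈ Z0, ‖α z‖ = 1)
    [(Z0.subgroupOf L).Normal] (x : L) :
    qK hα L Z0 hZ1 (x : L ⧸ Z0.subgroupOf L) = lK α (x : G) := rfl

theorem finrank_pos_Ks (hα : IsChr α) : 0 < finrank ℂ (Ks α) := by
  obtain ⟨ξ, hξ⟩ := hα.rep
  have h1 := IsChr.norm_rep hα.one hξ
  have hne : Ks α ≠ ⊥ := by
    intro h
    have h2 := xi_mem hα hξ
    rw [h, Submodule.mem_bot] at h2
    rw [h2, norm_zero] at h1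
    exact zero_ne_one h1
  have : Nontrivial (Ks α) := Submodule.nontrivial_iff_ne_bot.mpr hne
  exact finrank_pos

open Classical in
/-- **The gap step.** -/
theorem gap_step (hα : IsChr α) (L Z0 : Subgroup G) (hZ1 : ∀ z ∈ Z0, ‖α z‖ = 1)
    [(Z0.subgroupOf L).Normal] {κ : ℝ} (hκ : 0 ≤ κ) (hg : Gap (L ⧸ Z0.subgroupOf L) κ)
    (hw : ∑ n with n ∈ L, ‖α n‖ ^ 2 ≤ (cd L : ℝ) / 2) :
    ∀ x ∈ L, x ∉ Z0 → κ / 2 ≤ 1 - ‖α x‖ ^ 2 := by
  intro x hx hxZ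
  have : Fintype (L ⧸ Z0.subgroupOf L) := Fintype.ofFinite _
  set D : ℝ := (finrank ℂ (Ks α) : ℝ) with hD
  have hDpos : 0 < D := by
    rw [hD]
    exact_mod_cast finrank_pos_Ks hα
  set ρ := qK hα L Z0 hZ1 with hρ
  have hne : ((⟨x, hx⟩ : L) : L ⧸ Z0.subgroupOf L) ≠ 1 := by
    intro h
    rw [QuotientGroup.eq_one_iff] at h
    exact hxZ (Subgroup.mem_subgroupOf.1 h)
  have h1 := gap_inv hg ρ hne
  -- the trace of the average
  have hcL : (Fintype.card L : ℂ) ≠ 0 := Nat.cast_ne_zero.2 Fintype.card_ne_zero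
  have hcT : (Fintype.card (L ⧸ Z0.subgroupOf L) : ℂ) ≠ 0 :=
    Nat.cast_ne_zero.2 Fintype.card_ne_zero
  have hsum : ∑ y : L, ‖α (y : G)‖ ^ 2 = ∑ n with n ∈ L, ‖α n‖ ^ 2 :=
    (Finset.sum_subtype (univ.filter (· ∈ L)) (by simp) (fun n => ‖α n‖ ^ 2)).symm
  have hcd : (cd L : ℝ) = Fintype.card L := by
    unfold cd
    rw [Fintype.card_subtype]
  have h2 : LinearMap.trace ℂ _ (avg ρ)
      = (((Fintype.card L : ℝ)⁻¹ * ((∑ y : L, ‖α (y : G)‖ ^ 2) * D ^ 2) : ℝ) : ℂ) := by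
    rw [trace_avg]
    have h3 := sum_quot (Z0.subgroupOf L)
      (fun t => LinearMap.trace ℂ _ (ρ t))
    have h4 : ∀ y : L, LinearMap.trace ℂ _ (ρ (y : L ⧸ Z0.subgroupOf L))
        = ((‖α (y : G)‖ ^ 2 * D ^ 2 : ℝ) : ℂ) := by
      intro y
      rw [hρ, qK_mk, trace_lK hα]
    rw [Finset.sum_congr rfl (fun y _ => h4 y), ← Complex.ofReal_sum, ← Finset.sum_mul] at h3
    have h5 : (Fintype.card (L ⧸ Z0.subgroupOf L) : ℂ)⁻¹
        * ∑ t, LinearMap.trace ℂ _ (ρ t)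
        = (Fintype.card L : ℂ)⁻¹ * (((∑ y : L, ‖α (y : G)‖ ^ 2) * D ^ 2 : ℝ) : ℂ) := by
      rw [inv_mul_eq_iff_eq_mul₀ hcT, mul_left_comm, eq_inv_mul_iff_mul_eq₀ hcL]
      exact h3.symm
    rw [h5]
    push_cast
    ring
  have h3 : LinearMap.trace ℂ _ (ρ ((⟨x, hx⟩ : L) : L ⧸ Z0.subgroupOf L))
      = ((‖α x‖ ^ 2 * D ^ 2 : ℝ) : ℂ) := by
    rw [hρ, qK_mk, trace_lK hα]
  have h4 : (finrank ℂ (Ks α →ₗ[ℂ] Ks α) : ℝ) = D ^ 2 := by
    rw [Module.finrank_linearMap]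
    push_cast
    ring
  rw [h2, h3, Complex.ofReal_re, Complex.ofReal_re, h4] at h1
  have h5 : (Fintype.card L : ℝ)⁻¹ * ((∑ y : L, ‖α (y : G)‖ ^ 2) * D ^ 2) ≤ D ^ 2 / 2 := by
    have hcpos : (0 : ℝ) < Fintype.card L := by exact_mod_cast Fintype.card_pos
    rw [hsum, inv_mul_le_iff₀ hcpos]
    rw [hcd] at hw
    nlinarith [sq_nonneg D]
  set w := (Fintype.card L : ℝ)⁻¹ * ((∑ y : L, ‖α (y : G)‖ ^ 2) * D ^ 2) with hwdef
  have h6 : κ * w ≤ κ * (D ^ 2 / 2) := mul_le_mul_of_nonneg_left h5 hκ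
  have h7 : ‖α x‖ ^ 2 * D ^ 2 ≤ (1 - κ / 2) * D ^ 2 := by nlinarith
  have h8 : ‖α x‖ ^ 2 ≤ 1 - κ / 2 := le_of_mul_le_mul_right h7 (by positivity)
  linarith

end Vale.Agent.P318.R2.H678
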