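import Mathlib

/-!
P318, stage 4: the character ratio gap of a finite group.
-/

namespace Vale.Agent.P318.R2.H678

/-- `Gap T κ`: for every complex matrix representation `ρ` of `T` of degree `d` without nonzero
invariant vectors and every `x ≠ 1`, the real part of the trace of `ρ x` is at most
`(1 - κ) * d`.  Equivalently the real parts of all character ratios `χ x / χ 1`, with `χ ≠ 1`
irreducible and `x ≠ 1`, are at most `1 - κ`. -/
def Gap (T : Type*) [Group T] (κ : ℝ) : Prop :=
  ∀ (d : ℕ) (ρ : T →* Matrix (Fin d) (Fin d) ℂ),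
    (∀ v : Fin d → ℂ, (∀ x, (ρ x).mulVec v = v) → v = 0) →
    ∀ x, x ≠ 1 → ((ρ x).trace).re ≤ (1 - κ) * d

end Vale.Agent.P318.R2.H678
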