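import Vale.Agent.P318.R2.H678.SympModel
import Vale.Agent.P318.R2.H924.Crude

/-!
# The character gap of the simple symplectic groups
-/

namespace Vale.Agent.P318.R2.H678

open Vale.Agent.P318.R2.H402 (Pr Two)
open Matrix

/-- the gap of `PSp_2n(q)`, `n ≥ 2`, `(n, q) ≠ (2, 2)` -/
theorem gap_psp_big {n : ℕ} (hn : 2 ≤ n) (F : Type*) [Field F] [Finite F]
    (hF : 3 ≤ n ∨ 2 < Nat.card F)
    [IsSimpleGroup (symplecticGroup (Fin n) F ⧸ Subgroup.center (symplecticGroup (Fin n) F))] :
    Gap (symplecticGroup (Fin n) F ⧸ Subgroup.center (symplecticGroup (Fin n) F))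
      (1 / 18432) := by
  have h := H924.gap_of_two (by norm_num) (two_psp hn F hF)
  norm_num at h
  exact h

theorem card_psp_le {l F : Type*} [Fintype l] [DecidableEq l] [Field F] [Finite F] :
    Nat.card (symplecticGroup l F ⧸ Subgroup.center (symplecticGroup l F)) ≤
      Nat.card F ^ (Fintype.card (l ⊕ l) * Fintype.card (l ⊕ l)) := by
  have h1 : Nat.card (symplecticGroup l F) ≤ Nat.card (l ⊕ l → l ⊕ l → F) :=
    Nat.card_le_card_of_injective (fun g => fun i j => g.1 i j) fun a b hab => by
      apply Subtype.ext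
      ext i j
      exact congrFun (congrFun hab i) j
  have h2 : Nat.card (l ⊕ l → l ⊕ l → F) =
      Nat.card F ^ (Fintype.card (l ⊕ l) * Fintype.card (l ⊕ l)) := by
    rw [Nat.card_fun, Nat.card_fun, Nat.card_eq_fintype_card (α := l ⊕ l), ← pow_mul]
  rw [← h2]
  refine le_trans ?_ h1
  exact Nat.card_le_card_of_surjective _ (QuotientGroup.mk'_surjective _)

/-- the gap of all simple groups `PSp_2n(q)`, `n ≥ 2` -/
theorem gap_psp {n : ℕ} (hn : 2 ≤ n) (F : Type*) [Field F] [Finite F]
    [IsSimpleGroup (symplecticGroup (Fin n) F ⧸ Subgroup.center (symplecticGroup (Fin n) F))] :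
    Gap (symplecticGroup (Fin n) F ⧸ Subgroup.center (symplecticGroup (Fin n) F))
      (1 / 65536 ^ 2) := by
  by_cases hF : 3 ≤ n ∨ 2 < Nat.card F
  · exact H924.Gap.mono (gap_psp_big hn F hF) (by norm_num)
  · have h1 : n = 2 := by omega
    have h2 : Nat.card F ≤ 2 := by omega
    subst h1
    have h3 : Nat.card (symplecticGroup (Fin 2) F ⧸ Subgroup.center (symplecticGroup (Fin 2) F))
        ≤ 65536 := by
      refine card_psp_le.trans ?_
      rw [Fintype.card_sum, Fintype.card_fin]
      exact (Nat.pow_le_pow_left h2 _).trans (by norm_num)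
    have h4 := H924.gap_crude_le h3
    norm_num at h4 ⊢
    exact h4

end Vale.Agent.P318.R2.H678
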