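import Mathlib

/-!
# Invariant length functions on simple groups with few double cosets of a solvable subgroup
-/

namespace Vale.Agent.P318.R2.H678

section Bor

variable {T : Type*} [Group T]

/-- Iterated commutators. -/
inductive Wd : ℕ → T → Prop
  | zero (g : T) : Wd 0 g
  | succ (s : ℕ) (a b : T) : Wd s a → Wd s b → Wd (s + 1) (a * b * a⁻¹ * b⁻¹)

variable (f : T → ℝ) (f1 : f 1 = 0) (f0 : ∀ g, 0 ≤ f g) (fi : ∀ g, f g⁻¹ = f g)
  (fm : ∀ g h, f (g * h) ≤ f g + f h) (fc : ∀ g h, f (h * g * h⁻¹) = f g)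

include f1 f0 fi fm fc

/-- With few double cosets, every element is close to the subgroup. -/
theorem rank_le [IsSimpleGroup T] (B : Subgroup T) {r : ℕ} (c : Fin r → T)
    (hB : ∀ g, ∃ i, ∃ b ∈ B, ∃ b' ∈ B, g = b * c i * b') {x : T} (hx : x ≠ 1) (g : T) :
    ∃ b ∈ B, f (g * b⁻¹) ≤ 2 ^ r * f x := by
  classical
  let M : ℝ → Finset (Fin r) := fun d =>
    Finset.univ.filter fun i => ∃ g, f g ≤ d ∧ ∃ b ∈ B, ∃ b' ∈ B, g = b * c i * b'
  have hM : ∀ d e : ℝ, d ≤ e → M d ⊆ M e := by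
    intro d e hde i hi
    rw [Finset.mem_filter] at hi ⊢
    obtain ⟨_, g, hg, h⟩ := hi
    exact ⟨Finset.mem_univ _, g, hg.trans hde, h⟩
  have hxn : 0 ≤ f x := f0 x
  have hsc : ∀ j : ℕ, (2 : ℝ) ^ j * f x ≤ 2 ^ (j + 1) * f x := by
    intro j
    apply mul_le_mul_of_nonneg_right _ hxn
    exact pow_le_pow_right₀ (by norm_num) (by omega)
  obtain ⟨j, hj, hj'⟩ : ∃ j, j ≤ r ∧ M (2 ^ j * f x) = M (2 ^ (j + 1) * f x) := by
    by_contra hc
    push Not at hc
    have h1 : ∀ j, j ≤ r + 1 → j ≤ (M (2 ^ j * f x)).card := by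
      intro j
      induction j with
      | zero => intro _; exact Nat.zero_le _
      | succ j ih =>
        intro hj
        have h2 := ih (by omega)
        have h3 : M (2 ^ j * f x) ⊂ M (2 ^ (j + 1) * f x) :=
          (hM _ _ (hsc j)).ssubset_of_ne (hc j (by omega))
        have h4 := Finset.card_lt_card h3
        omega
    have h5 := h1 (r + 1) le_rfl
    have h6 := (M (2 ^ (r + 1) * f x)).card_le_univ
    rw [Fintype.card_fin] at h6
    omega
  set d := 2 ^ j * f x with hd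
  have hd0 : 0 ≤ d := mul_nonneg (by positivity) hxn
  have hdx : f x ≤ d := by
    rw [hd]
    calc f x = 1 * f x := (one_mul _).symm
      _ ≤ 2 ^ j * f x := mul_le_mul_of_nonneg_right (one_le_pow₀ (by norm_num)) hxn
  have hd2 : 2 ^ (j + 1) * f x = d + d := by rw [hd, pow_succ]; ring
  have hdr : d ≤ 2 ^ r * f x :=
    mul_le_mul_of_nonneg_right (pow_le_pow_right₀ (by norm_num) hj) hxn
  rw [hd2] at hj'
  let U : Subgroup T :=
    { carrier := {g | ∃ s, f s ≤ d ∧ ∃ b ∈ B, ∃ b' ∈ B, g = b * s * b'}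
      one_mem' := ⟨1, by rw [f1]; exact hd0, 1, B.one_mem, 1, B.one_mem, by group⟩
      mul_mem' := by
        rintro _ _ ⟨s, hs, b, hb, b', hb', rfl⟩ ⟨t, ht, k, hk, k', hk', rfl⟩
        obtain ⟨i, l, hl, l', hl', h1⟩ := hB (((b' * k)⁻¹ * s * (b' * k)⁻¹⁻¹) * t)
        have h2 : i ∈ M (d + d) := by
          rw [Finset.mem_filter]
          refine ⟨Finset.mem_univ _, _, ?_, l, hl, l', hl', h1⟩
          exact (fm _ _).trans (add_le_add (by rw [fc]; exact hs) ht)
        rw [← hj', Finset.mem_filter] at h2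
        obtain ⟨_, u, hu, m, hm, m', hm', h3⟩ := h2
        refine ⟨u, hu, b * (b' * k) * l * m⁻¹, ?_, m'⁻¹ * l' * k', ?_, ?_⟩
        · exact B.mul_mem (B.mul_mem (B.mul_mem hb (B.mul_mem hb' hk)) hl) (B.inv_mem hm)
        · exact B.mul_mem (B.mul_mem (B.inv_mem hm') hl') hk'
        · calc b * s * b' * (k * t * k') =
              b * (b' * k) * (((b' * k)⁻¹ * s * (b' * k)⁻¹⁻¹) * t) * k' := by group
            _ = b * (b' * k) * (l * c i * l') * k' := by rw [h1]
            _ = b * (b' * k) * l * m⁻¹ * (m * c i * m') * (m'⁻¹ * l' * k') := by group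
            _ = b * (b' * k) * l * m⁻¹ * u * (m'⁻¹ * l' * k') := by rw [h3]
      inv_mem' := by
        rintro _ ⟨s, hs, b, hb, b', hb', rfl⟩
        exact ⟨s⁻¹, by rw [fi]; exact hs, b'⁻¹, B.inv_mem hb', b⁻¹, B.inv_mem hb, by group⟩ }
  have hU : U = ⊤ := by
    have h1 : Subgroup.normalClosure {x} ≤ U := by
      unfold Subgroup.normalClosure
      rw [Subgroup.closure_le]
      intro y hy
      obtain ⟨a, ha, hay⟩ := Group.mem_conjugatesOfSet_iff.1 hy
      rw [Set.mem_singleton_iff] at ha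
      subst ha
      obtain ⟨k, rfl⟩ := isConj_iff.1 hay
      exact ⟨k * a * k⁻¹, by rw [fc]; exact hdx, 1, B.one_mem, 1, B.one_mem, by group⟩
    have h2 : (Subgroup.normalClosure {x}).Normal := Subgroup.normalClosure_normal
    rcases h2.eq_bot_or_eq_top with h3 | h3
    · exfalso
      apply hx
      rw [← Subgroup.mem_bot, ← h3]
      exact Subgroup.subset_normalClosure (Set.mem_singleton _)
    · rw [eq_top_iff, ← h3]
      exact h1
  obtain ⟨s, hs, b, hb, b', hb', hg⟩ : g ∈ U := by rw [hU]; exact Subgroup.mem_top g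
  refine ⟨b * b', B.mul_mem hb hb', ?_⟩
  have h1 : g * (b * b')⁻¹ = b * s * b⁻¹ := by rw [hg]; group
  rw [h1, fc]
  exact hs.trans hdr

/-- Iterated commutators are short when the subgroup is solvable. -/
theorem wd_close (B : Subgroup T) {D : ℝ} (hD : ∀ g, ∃ b ∈ B, f (g * b⁻¹) ≤ D) (s : ℕ) (g : T)
    (hg : Wd s g) : ∃ b : B, b ∈ derivedSeries B s ∧ f (g * (b : T)⁻¹) ≤ 4 ^ s * D := by
  induction hg with
  | zero g =>
    obtain ⟨b, hb, h⟩ := hD g
    exact ⟨⟨b, hb⟩, by rw [derivedSeries_zero]; exact Subgroup.mem_top _, by simpa using h⟩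
  | succ s a b _ _ iha ihb =>
    obtain ⟨α, hα, h1⟩ := iha
    obtain ⟨β, hβ, h2⟩ := ihb
    refine ⟨α * β * α⁻¹ * β⁻¹, ?_, ?_⟩
    · rw [derivedSeries_succ]
      exact Subgroup.commutator_mem_commutator hα hβ
    · have key : ∀ p q p' q' : T, f (p * q * (p' * q')⁻¹) ≤ f (p * p'⁻¹) + f (q * q'⁻¹) := by
        intro p q p' q'
        have e : p * q * (p' * q')⁻¹ = (p * (q * q'⁻¹) * p⁻¹) * (p * p'⁻¹) := by group
        rw [e]
        refine (fm _ _).trans ?_
        rw [fc]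
        linarith
      have kin : ∀ p p' : T, f (p⁻¹ * p'⁻¹⁻¹) = f (p * p'⁻¹) := by
        intro p p'
        rw [← fi (p⁻¹ * p'⁻¹⁻¹), ← fc (p * p'⁻¹) p'⁻¹]
        congr 1
        group
      have k1 := key (a * b * a⁻¹) b⁻¹ ((α : T) * β * (α : T)⁻¹) (β : T)⁻¹
      have k2 := key (a * b) a⁻¹ ((α : T) * β) (α : T)⁻¹
      have k3 := key a b (α : T) β
      rw [kin] at k1 k2
      have e : ((α * β * α⁻¹ * β⁻¹ : B) : T) = (α : T) * β * (α : T)⁻¹ * (β : T)⁻¹ := by
        push_cast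
        rfl
      rw [e, pow_succ]
      linarith

/-- Iterated commutators are short when the subgroup is solvable of bounded derived length. -/
theorem wd_short [IsSimpleGroup T] (B : Subgroup T) {r s : ℕ} (c : Fin r → T)
    (hB : ∀ g, ∃ i, ∃ b ∈ B, ∃ b' ∈ B, g = b * c i * b') (hs : derivedSeries B s = ⊥)
    {x : T} (hx : x ≠ 1) (g : T) (hg : Wd s g) : f g ≤ 4 ^ s * (2 ^ r * f x) := by
  obtain ⟨b, hb, h⟩ := wd_close f f1 f0 fi fm fc B
    (rank_le f f1 f0 fi fm fc B c hB hx) s g hg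
  rw [hs, Subgroup.mem_bot] at hb
  rw [hb] at h
  simpa using h

end Bor

end Vale.Agent.P318.R2.H678
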