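import Vale.Agent.P318.R2.H356.Exc
import Vale.Agent.P318.R2.H356.FamPsl2

/-!
# Simple groups generated by root subgroups: products of few conjugates
-/

namespace Vale.Agent.P318.R2.H678

open Vale.Agent.P318.R2.H402 (Pr)
open Vale.Agent.P318.R2.H356 (Opposite Special RootGen)
open Matrix

theorem Pr_trans {T : Type*} [Group T] {m n : ℕ} {x y z : T} (h : Pr m x y) (h' : Pr n y z) :
    Pr (m * n) x z := by
  obtain ⟨w, h1, h2, rfl⟩ := h'
  have key : ∀ w : List T, (∀ u ∈ w, IsConj y u ∨ IsConj y⁻¹ u) → Pr (m * w.length) x w.prod := by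
    intro w
    induction w with
    | nil => intro _; exact Pr.one _ _
    | cons a w ih =>
      intro hw
      rw [List.prod_cons, List.length_cons]
      have h3 : Pr m x a := by
        rcases hw a (by simp) with h3 | h3
        · exact h.isConj h3
        · exact h.inv.isConj h3
      have h4 := h3.mul (ih fun u hu => hw u (by simp [hu]))
      exact h4.mono (by ring_nf; omega)
  exact (key w h2).mono (Nat.mul_le_mul_left m h1)

section SL

variable {F : Type} [Field F]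

/-- The commutator of a lower and an upper unipotent matrix is not central. -/
theorem comm_not_central {g u : SpecialLinearGroup (Fin 2) F}
    (g00 : (g : Matrix (Fin 2) (Fin 2) F) 0 0 = 1) (g11 : (g : Matrix (Fin 2) (Fin 2) F) 1 1 = 1)
    (g01 : (g : Matrix (Fin 2) (Fin 2) F) 0 1 = 0) (g10 : (g : Matrix (Fin 2) (Fin 2) F) 1 0 ≠ 0)
    (u00 : (u : Matrix (Fin 2) (Fin 2) F) 0 0 = 1) (u11 : (u : Matrix (Fin 2) (Fin 2) F) 1 1 = 1)
    (u10 : (u : Matrix (Fin 2) (Fin 2) F) 1 0 = 0) (u01 : (u : Matrix (Fin 2) (Fin 2) F) 0 1 ≠ 0) :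
    g * u * g⁻¹ * u⁻¹ ∉ Subgroup.center (SpecialLinearGroup (Fin 2) F) := by
  intro hc
  rw [Matrix.SpecialLinearGroup.mem_center_iff] at hc
  obtain ⟨r, -, hr⟩ := hc
  have h1 : (g * u * g⁻¹ * u⁻¹ : SpecialLinearGroup (Fin 2) F) * (u * g) = g * u := by group
  have h2 : (g * u * g⁻¹ * u⁻¹ * (u * g) : SpecialLinearGroup (Fin 2) F).1 = (g * u).1 := by
    rw [h1]
  change (g * u * g⁻¹ * u⁻¹ : SpecialLinearGroup (Fin 2) F).1 * (u.1 * g.1) = g.1 * u.1 at h2
  change Matrix.scalar (Fin 2) r = (g * u * g⁻¹ * u⁻¹ : SpecialLinearGroup (Fin 2) F).1 at hr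
  rw [← hr] at h2
  have e00 := congrFun (congrFun h2 0) 0
  have e01 := congrFun (congrFun h2 0) 1
  simp [Matrix.mul_apply, Fin.sum_univ_two, Matrix.scalar_apply, Matrix.diagonal, g00, g11, g01,
    u00, u11, u10] at e00 e01
  have hr1 : r = 1 := mul_right_cancel₀ u01 (by rw [e01, one_mul])
  rw [hr1, one_mul] at e00
  have e02 : u.1 0 1 * g.1 1 0 = 0 := by linear_combination e00
  rcases mul_eq_zero.1 e02 with e03 | e03
  · exact u01 e03
  · exact g10 e03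

end SL

section Core

variable {T : Type} [Group T] {F : Type} [Field F] [Finite F]

theorem core (hF : 5 < Nat.card F) {S : Set (Subgroup T)} {A D : Subgroup T} {x a : T}
    (ha : a ∈ A) (ha1 : a ≠ 1) (hP : ∀ d ∈ D, Pr 4 x (a * d * a⁻¹ * d⁻¹)) (hAS : A ∈ S)
    (h : Opposite F A D ∨ Special S A D) : ∃ C ∈ S, ∀ z ∈ C, Pr 16 x z := by
  obtain ⟨c, hc, hc4⟩ := H356.exists_pow_four hF
  rcases h with ⟨f, hA, hD⟩ | ⟨C, hC, hCs⟩
  · obtain ⟨g, g00, g11, g01, hfg⟩ := (hA a).1 ha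
    have g10 : (g : Matrix (Fin 2) (Fin 2) F) 1 0 ≠ 0 := by
      intro h0
      apply ha1
      rw [← hfg]
      have : g = 1 := by
        apply Subtype.ext
        ext i j
        fin_cases i <;> fin_cases j
        · exact g00
        · exact g01
        · exact h0
        · exact g11
      rw [this, map_one]
    have hu : f (H221.up 1) ∈ D := (hD _).2 ⟨H221.up 1, rfl, rfl, rfl, rfl⟩
    have h1 := hP _ hu
    rw [← hfg, ← map_inv, ← map_inv, ← map_mul, ← map_mul, ← map_mul] at h1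
    have h2 := comm_not_central (g := g) (u := H221.up 1) g00 g11 g01 g10 rfl rfl rfl
      (by change (1 : F) ≠ 0; exact one_ne_zero)
    refine ⟨A, hAS, fun z hz => ?_⟩
    obtain ⟨g', g00', g11', g01', hfg'⟩ := (hA z).1 hz
    have h3 : g' = H221.lo ((g' : Matrix (Fin 2) (Fin 2) F) 1 0) := by
      apply Subtype.ext
      ext i j
      fin_cases i <;> fin_cases j
      · exact g00'
      · exact g01'
      · rfl
      · exact g11'
    have h4 := (H221.pr_lo hc hc4 h2 ((g' : Matrix (Fin 2) (Fin 2) F) 1 0)).map f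
    rw [← h3, hfg'] at h4
    exact Pr_trans h1 h4
  · refine ⟨C, hC, fun z hz => ?_⟩
    obtain ⟨b, hb, hbz⟩ := hCs a ha ha1 z hz
    rw [← hbz]
    exact (hP b hb).mono (by norm_num)

end Core

section Main

variable {T : Type} [Group T]

theorem mem_conj_iff {A : Subgroup T} {g y : T} :
    y ∈ A.map (MulAut.conj g).toMonoidHom ↔ g⁻¹ * y * g ∈ A := by
  constructor
  · rintro ⟨a, ha, rfl⟩
    have : g⁻¹ * (MulAut.conj g).toMonoidHom a * g = a := by
      change g⁻¹ * (g * a * g⁻¹) * g = a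
      group
    rw [this]
    exact ha
  · intro h
    refine ⟨_, h, ?_⟩
    change g * (g⁻¹ * y * g) * g⁻¹ = y
    group

/-- All members of the class consist of products of 16 conjugates of any nontrivial element. -/
theorem root_words [IsSimpleGroup T] (hna : ∃ a b : T, a * b ≠ b * a) {F : Type} [Field F]
    [Finite F] {S : Set (Subgroup T)} (hF : 5 < Nat.card F)
    (hcomm : ∀ A ∈ S, ∀ a ∈ A, ∀ b ∈ A, a * b = b * a)
    (hconj : ∀ A ∈ S, ∀ g : T, A.map (MulAut.conj g).toMonoidHom ∈ S)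
    (htrans : ∀ A ∈ S, ∀ B ∈ S, ∃ g : T, B = A.map (MulAut.conj g).toMonoidHom)
    (hpair : ∀ A ∈ S, ∀ B ∈ S,
      (∀ a ∈ A, ∀ b ∈ B, a * b = b * a) ∨ Opposite F A B ∨ Special S A B)
    (hsep : ∀ A ∈ S, ∀ B ∈ S, (∀ D ∈ S, (∀ a ∈ A, ∀ d ∈ D, a * d = d * a) ↔
      ∀ b ∈ B, ∀ d ∈ D, b * d = d * b) → A = B)
    (hnt : ∀ A ∈ S, ∃ a ∈ A, a ≠ 1) {A₀ : Subgroup T} (hA₀ : A₀ ∈ S)
    {x : T} (hx : x ≠ 1) {A' : Subgroup T} (hA' : A' ∈ S) {y : T} (hy : y ∈ A') :
    Pr 16 x y := by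
  let N : Subgroup T :=
    { carrier := {g | ∀ A ∈ S, ∀ a, a ∈ A ↔ g * a * g⁻¹ ∈ A}
      one_mem' := by
        intro A _ a
        rw [one_mul, inv_one, mul_one]
      mul_mem' := by
        intro g g' hg hg' A hA a
        rw [hg' A hA a, hg A hA]
        have : g * (g' * a * g'⁻¹) * g⁻¹ = g * g' * a * (g * g')⁻¹ := by group
        rw [this]
      inv_mem' := by
        intro g hg A hA a
        rw [hg A hA (g⁻¹ * a * g⁻¹⁻¹)]
        have : g * (g⁻¹ * a * g⁻¹⁻¹) * g⁻¹ = a := by group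
        rw [this] }
  have hNn : N.Normal := by
    constructor
    intro g hg c A hA a
    have h1 := hg _ (hconj A hA c⁻¹) (c⁻¹ * a * c)
    rw [mem_conj_iff, mem_conj_iff] at h1
    have e1 : c⁻¹⁻¹ * (c⁻¹ * a * c) * c⁻¹ = a := by group
    have e2 : c⁻¹⁻¹ * (g * (c⁻¹ * a * c) * g⁻¹) * c⁻¹ = c * g * c⁻¹ * a * (c * g * c⁻¹)⁻¹ := by
      group
    rw [e1, e2] at h1
    exact h1
  have hNb : N = ⊥ := by
    rcases hNn.eq_bot_or_eq_top with h | h
    · exact h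
    · exfalso
      have h1 : A₀.Normal := by
        constructor
        intro a ha g
        have h2 : g ∈ N := by rw [h]; exact Subgroup.mem_top g
        exact (h2 A₀ hA₀ a).1 ha
      rcases h1.eq_bot_or_eq_top with h2 | h2
      · obtain ⟨a, ha, ha1⟩ := hnt A₀ hA₀
        rw [h2, Subgroup.mem_bot] at ha
        exact ha1 ha
      · obtain ⟨a, b, hab⟩ := hna
        exact hab (hcomm A₀ hA₀ a (by rw [h2]; exact Subgroup.mem_top a) b
          (by rw [h2]; exact Subgroup.mem_top b))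
  have hxN : x ∉ N := by
    rw [hNb, Subgroup.mem_bot]
    exact hx
  obtain ⟨A, hA, hA1⟩ : ∃ A ∈ S, ¬ ∀ a, a ∈ A ↔ x * a * x⁻¹ ∈ A := by
    by_contra hc
    push Not at hc
    exact hxN fun A hA => hc A hA
  set B := A.map (MulAut.conj x).toMonoidHom with hBdef
  have hB : B ∈ S := hconj A hA x
  have hAB : A ≠ B := by
    intro h
    apply hA1
    intro a
    conv_rhs => rw [h, hBdef, mem_conj_iff]
    have : x⁻¹ * (x * a * x⁻¹) * x = a := by group
    rw [this]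
  obtain ⟨a, ha, ha1⟩ := hnt A hA
  have hbB : x * a * x⁻¹ ∈ B := ⟨a, ha, rfl⟩
  have hb1 : x * a * x⁻¹ ≠ 1 := by
    intro h
    apply ha1
    have : a = x⁻¹ * (x * a * x⁻¹) * x := by group
    rw [this, h]
    group
  have y1 : Pr 2 x (a⁻¹ * (x * a * x⁻¹)) := by
    have h1 := ((Pr.self x).conj a⁻¹).mul (Pr.inv_self x)
    have h2 : a⁻¹ * x * a⁻¹⁻¹ * x⁻¹ = a⁻¹ * (x * a * x⁻¹) := by group
    rwa [h2] at h1
  have y2 : Pr 2 x (x * a * x⁻¹ * a⁻¹) := by
    have h1 := (Pr.self x).comm a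
    have h2 : x * (a * x⁻¹ * a⁻¹) = x * a * x⁻¹ * a⁻¹ := by group
    rwa [h2] at h1
  generalize x * a * x⁻¹ = b at hbB hb1 y1 y2
  have z2 : ∀ d : T, b * d = d * b → Pr 4 x (a * d * a⁻¹ * d⁻¹) := by
    intro d hd
    have h1 := y2.inv.mul (y2.conj d)
    have h2 : (b * a⁻¹)⁻¹ * (d * (b * a⁻¹) * d⁻¹) = a * d * a⁻¹ * d⁻¹ := by
      calc (b * a⁻¹)⁻¹ * (d * (b * a⁻¹) * d⁻¹) = a * b⁻¹ * (d * b) * a⁻¹ * d⁻¹ := by group
        _ = a * b⁻¹ * (b * d) * a⁻¹ * d⁻¹ := by rw [hd]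
        _ = a * d * a⁻¹ * d⁻¹ := by group
    rwa [h2] at h1
  have z1 : ∀ d : T, a * d = d * a → Pr 4 x (b⁻¹ * d * b⁻¹⁻¹ * d⁻¹) := by
    intro d hd
    have h1 := y1.inv.mul (y1.conj d)
    have h2 : (a⁻¹ * b)⁻¹ * (d * (a⁻¹ * b) * d⁻¹) = b⁻¹ * d * b⁻¹⁻¹ * d⁻¹ := by
      calc (a⁻¹ * b)⁻¹ * (d * (a⁻¹ * b) * d⁻¹) = b⁻¹ * (a * d) * a⁻¹ * b * d⁻¹ := by group
        _ = b⁻¹ * (d * a) * a⁻¹ * b * d⁻¹ := by rw [hd]
        _ = b⁻¹ * d * b⁻¹⁻¹ * d⁻¹ := by group
    rwa [h2] at h1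
  obtain ⟨C, hC, hCP⟩ : ∃ C ∈ S, ∀ z ∈ C, Pr 16 x z := by
    by_cases hcAB : ∀ a ∈ A, ∀ b ∈ B, a * b = b * a
    · obtain ⟨D, hD, hD1⟩ : ∃ D ∈ S, ¬ ((∀ a ∈ A, ∀ d ∈ D, a * d = d * a) ↔
          ∀ b ∈ B, ∀ d ∈ D, b * d = d * b) := by
        by_contra hc
        apply hAB
        apply hsep A hA B hB
        intro D hD
        by_contra hc'
        exact hc ⟨D, hD, hc'⟩
      by_cases hAD : ∀ a ∈ A, ∀ d ∈ D, a * d = d * a
      · have hBD : ¬ ∀ b ∈ B, ∀ d ∈ D, b * d = d * b := fun h => hD1 ⟨fun _ => h, fun _ => hAD⟩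
        exact core hF (B.inv_mem hbB) (inv_ne_one.2 hb1) (fun d hd => z1 d (hAD a ha d hd)) hB
          ((hpair B hB D hD).resolve_left hBD)
      · have hBD : ∀ b ∈ B, ∀ d ∈ D, b * d = d * b := by
          by_contra h
          exact hD1 ⟨fun h' => absurd h' hAD, fun h' => absurd h' h⟩
        exact core hF ha ha1 (fun d hd => z2 d (hBD b hbB d hd)) hA
          ((hpair A hA D hD).resolve_left hAD)
    · exact core hF ha ha1 (fun d hd => z2 d (hcomm B hB b hbB d hd)) hA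
        ((hpair A hA B hB).resolve_left hcAB)
  obtain ⟨g, hg⟩ := htrans C hC A' hA'
  rw [hg] at hy
  obtain ⟨c, hc, rfl⟩ := hy
  exact (hCP c hc).conj g

/-- The structure theorem in the form used for the gap. -/
theorem root_gen [IsSimpleGroup T] (hna : ∃ a b : T, a * b ≠ b * a) {k : ℕ}
    (h : RootGen T k) : ∃ A : Fin k → Subgroup T, ⨆ i, A i = ⊤ ∧
      ∀ x : T, x ≠ 1 → ∀ i, ∀ y ∈ A i, Pr 16 x y := by
  obtain ⟨F, _, _, S, hF, hcomm, hconj, htrans, hpair, hsep, A, hA, hgen⟩ := h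
  have hnt : ∀ A ∈ S, ∃ a ∈ A, a ≠ 1 := by
    intro A1 hA1
    by_contra hc
    push Not at hc
    obtain ⟨a, b, hab⟩ := hna
    have h1 : ∀ i, A i = ⊥ := by
      intro i
      obtain ⟨g, hg⟩ := htrans A1 hA1 (A i) (hA i)
      rw [eq_bot_iff, hg]
      rintro _ ⟨c, hc', rfl⟩
      rw [hc c hc', map_one]
      exact Subgroup.one_mem _
    have h2 : (⊤ : Subgroup T) = ⊥ := by
      rw [← hgen]
      simp [h1]
    have h3 : ∀ c : T, c = 1 := fun c => Subgroup.mem_bot.1 (by rw [← h2]; exact Subgroup.mem_top c)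
    apply hab
    rw [h3 a, h3 b]
  refine ⟨A, hgen, fun x hx i y hy => ?_⟩
  exact root_words hna hF hcomm hconj htrans hpair hsep hnt (hA i) hx (hA i) hy

end Main

end Vale.Agent.P318.R2.H678
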