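import Mathlib

/-!
P318, wave 3 (ConjugationInvariant), module S: the spectral step.

`R g` is right translation on functions on a finite group, `T g` its class average.  On the
functions with zero sum over every coset of the commutator subgroup, the lowest energy of a
class function `c` is attained on a common eigenvector of all `T g`; the eigenvalues form a
nonlinear normalised character.
-/

namespace Vale.Agent.P318.R2.H678

open Finset Module

set_option linter.unusedSectionVars false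

variable {G : Type*} [Group G] [Fintype G]

/-- Right translation. -/
noncomputable def R (g : G) : EuclideanSpace ℂ G →ₗ[ℂ] EuclideanSpace ℂ G where
  toFun f := WithLp.toLp 2 (fun x => f (x * g))
  map_add' f h := by
    ext x; simp
  map_smul' a f := by
    ext x; simp

@[simp] theorem R_apply (g : G) (f : EuclideanSpace ℂ G) (x : G) : R g f x = f (x * g) := rfl

theorem R_R (g h : G) (f : EuclideanSpace ℂ G) : R g (R h f) = R (g * h) f := by
  ext x; simp [mul_assoc]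

theorem inner_R (g : G) (f h : EuclideanSpace ℂ G) :
    inner ℂ (R g f) (R g h) = inner ℂ f h := by
  simp only [PiLp.inner_apply, R_apply]
  exact Fintype.sum_equiv (Equiv.mulRight g) _ _ (fun x => rfl)

theorem R_one (f : EuclideanSpace ℂ G) : R (1 : G) f = f := by
  ext x; simp

theorem inner_R_left (g : G) (f h : EuclideanSpace ℂ G) :
    inner ℂ (R g f) h = inner ℂ f (R g⁻¹ h) := by
  have : R g (R g⁻¹ h) = h := by rw [R_R, mul_inv_cancel, R_one]
  nth_rewrite 1 [← this]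
  rw [inner_R]

theorem norm_R (g : G) (f : EuclideanSpace ℂ G) : ‖R g f‖ = ‖f‖ := by
  have h : inner ℂ (R g f) (R g f) = inner ℂ f f := inner_R g f f
  rw [inner_self_eq_norm_sq_to_K, inner_self_eq_norm_sq_to_K] at h
  have h2 : ‖R g f‖ ^ 2 = ‖f‖ ^ 2 := by exact_mod_cast h
  exact (sq_eq_sq₀ (norm_nonneg _) (norm_nonneg _)).mp h2

/-- Class average of right translations. -/
noncomputable def T (g : G) : EuclideanSpace ℂ G →ₗ[ℂ] EuclideanSpace ℂ G :=
  (Fintype.card G : ℂ)⁻¹ • ∑ y : G, R (y * g * y⁻¹)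

theorem T_apply (g : G) (f : EuclideanSpace ℂ G) :
    T g f = (Fintype.card G : ℂ)⁻¹ • ∑ y : G, R (y * g * y⁻¹) f := by
  simp [T, LinearMap.sum_apply]

theorem R_T (h g : G) (f : EuclideanSpace ℂ G) : R h (T g f) = T g (R h f) := by
  rw [T_apply, T_apply, map_smul, map_sum]
  congr 1
  refine Fintype.sum_equiv (Equiv.mulLeft h) _ _ (fun y => ?_)
  rw [R_R, R_R]
  congr 1
  simp [mul_assoc]

/-- The energy operator. -/
noncomputable def L (c : G → ℝ) : EuclideanSpace ℂ G →ₗ[ℂ] EuclideanSpace ℂ G :=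
  ∑ g : G, (c g : ℂ) • R g

theorem L_apply (c : G → ℝ) (f : EuclideanSpace ℂ G) :
    L c f = ∑ g : G, (c g : ℂ) • R g f := by
  simp [L, LinearMap.sum_apply]

theorem L_symm {c : G → ℝ} (hs : ∀ g, c g⁻¹ = c g) : (L c).IsSymmetric := by
  intro f h
  rw [L_apply, L_apply, sum_inner, inner_sum]
  refine Fintype.sum_equiv (Equiv.inv G) _ _ (fun g => ?_)
  rw [inner_smul_left, inner_smul_right, inner_R_left]
  simp [hs]

theorem R_L {c : G → ℝ} (hc : ∀ g h, c (h * g * h⁻¹) = c g) (h : G)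
    (f : EuclideanSpace ℂ G) : R h (L c f) = L c (R h f) := by
  rw [L_apply, L_apply, map_sum]
  refine Fintype.sum_equiv (MulAut.conj h).toEquiv _ _ (fun g => ?_)
  have e : (MulAut.conj h).toEquiv g = h * g * h⁻¹ := rfl
  rw [map_smul, R_R, R_R, e, hc]
  congr 3
  group

theorem L_eq_sum_T {c : G → ℝ} (hc : ∀ g h, c (h * g * h⁻¹) = c g)
    (f : EuclideanSpace ℂ G) : L c f = ∑ g : G, (c g : ℂ) • T g f := by
  have key : ∀ y : G, ∑ g : G, (c g : ℂ) • R (y * g * y⁻¹) f = L c f := by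
    intro y
    rw [L_apply]
    refine Fintype.sum_equiv (MulAut.conj y).toEquiv _ _ (fun g => ?_)
    simp [hc]
  have h1 : ∑ g : G, (c g : ℂ) • T g f
      = (Fintype.card G : ℂ)⁻¹ • ∑ y : G, ∑ g : G, (c g : ℂ) • R (y * g * y⁻¹) f := by
    rw [Finset.sum_comm, Finset.smul_sum]
    refine Finset.sum_congr rfl (fun g _ => ?_)
    rw [T_apply, smul_comm, Finset.smul_sum]
  rw [h1, Finset.sum_congr rfl (fun y _ => key y)]
  rw [Finset.sum_const, Finset.card_univ, ← Nat.cast_smul_eq_nsmul ℂ, smul_smul,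
    inv_mul_cancel₀ (by exact_mod_cast Fintype.card_ne_zero), one_smul]

/-- The energy identity. -/
theorem energy (c : G → ℝ) (f : EuclideanSpace ℂ G) :
    ∑ g, c g * ∑ x, ‖f (x * g) - f x‖ ^ 2
      = 2 * (∑ g, c g) * ‖f‖ ^ 2 - 2 * (inner ℂ f (L c f)).re := by
  have h1 : ∀ g : G, ∑ x, ‖f (x * g) - f x‖ ^ 2 = 2 * ‖f‖ ^ 2 - 2 * (inner ℂ f (R g f)).re := by
    intro g
    have h2 : ∑ x, ‖f (x * g) - f x‖ ^ 2 = ‖R g f - f‖ ^ 2 := by
      rw [EuclideanSpace.norm_sq_eq]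
      rfl
    rw [h2, @norm_sub_sq ℂ, norm_R]
    have h3 : RCLike.re (inner ℂ (R g f) f) = (inner ℂ f (R g f)).re :=
      inner_re_symm (𝕜 := ℂ) _ _
    rw [h3]
    ring
  simp only [h1]
  rw [L_apply, inner_sum, Complex.re_sum, Finset.mul_sum, Finset.sum_mul, Finset.mul_sum,
    ← Finset.sum_sub_distrib]
  refine Finset.sum_congr rfl (fun g _ => ?_)
  rw [inner_smul_right, Complex.re_ofReal_mul]
  ring

/-- Functions with zero sum over every coset of the commutator subgroup. -/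
noncomputable def V (G : Type*) [Group G] [Fintype G] [Fintype (commutator G)] :
    Submodule ℂ (EuclideanSpace ℂ G) where
  carrier := {f | ∀ x : G, ∑ k : commutator G, f (x * k) = 0}
  add_mem' {f h} hf hh x := by
    have e : ∀ k : commutator G, (f + h) (x * k) = f (x * k) + h (x * k) := fun k => rfl
    simp only [e, Finset.sum_add_distrib]
    rw [hf x, hh x, add_zero]
  zero_mem' x := by simp
  smul_mem' a f hf x := by
    have e : ∀ k : commutator G, (a • f) (x * k) = a * f (x * k) := fun k => rfl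
    simp only [e, ← Finset.mul_sum]
    rw [hf x, mul_zero]

theorem mem_V [Fintype (commutator G)] {f : EuclideanSpace ℂ G} :
    f ∈ V G ↔ ∀ x : G, ∑ k : commutator G, f (x * k) = 0 := Iff.rfl

theorem R_mem_V [Fintype (commutator G)] (g : G) {f : EuclideanSpace ℂ G} (hf : f ∈ V G) :
    R g f ∈ V G := by
  intro x
  rw [← hf (x * g)]
  refine Fintype.sum_equiv (MulAut.conjNormal g⁻¹).toEquiv _ _ (fun k => ?_)
  have e : (((MulAut.conjNormal g⁻¹).toEquiv k : commutator G) : G) = g⁻¹ * k * g := by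
    change ((MulAut.conjNormal g⁻¹ k : commutator G) : G) = _
    rw [MulAut.conjNormal_apply, inv_inv]
  rw [R_apply, e]
  group

theorem sum_smul_mem {W : Submodule ℂ (EuclideanSpace ℂ G)}
    (hW : ∀ g, ∀ f ∈ W, R g f ∈ W) (c : G → ℝ) {f : EuclideanSpace ℂ G} (hf : f ∈ W) :
    L c f ∈ W := by
  rw [L_apply]
  exact Submodule.sum_mem _ (fun g _ => Submodule.smul_mem _ _ (hW g f hf))

theorem T_mem {W : Submodule ℂ (EuclideanSpace ℂ G)}
    (hW : ∀ g, ∀ f ∈ W, R g f ∈ W) (g : G) {f : EuclideanSpace ℂ G} (hf : f ∈ W) :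
    T g f ∈ W := by
  rw [T_apply]
  exact Submodule.smul_mem _ _ (Submodule.sum_mem _ (fun y _ => hW _ f hf))

/-- The top eigenvalue of the energy operator on an invariant subspace. -/
theorem exists_top {c : G → ℝ} (hs : ∀ g, c g⁻¹ = c g)
    (W : Submodule ℂ (EuclideanSpace ℂ G)) (hW : ∀ f ∈ W, L c f ∈ W) (h0 : W ≠ ⊥) :
    ∃ lam : ℝ, (∀ f ∈ W, (inner ℂ f (L c f)).re ≤ lam * ‖f‖ ^ 2) ∧
      ∃ f ∈ W, f ≠ 0 ∧ L c f = (lam : ℂ) • f := by
  have hsym := (L_symm hs).restrict_invariant hW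
  have : Nontrivial W := Submodule.nontrivial_iff_ne_bot.mpr h0
  set n := finrank ℂ W with hn
  have hn' : finrank ℂ W = n := rfl
  have hpos : 0 < n := finrank_pos
  have : Nonempty (Fin n) := ⟨⟨0, hpos⟩⟩
  obtain ⟨i0, hi0⟩ := Finite.exists_max (hsym.eigenvalues hn')
  set b := hsym.eigenvectorBasis hn' with hb
  have hbi : ∀ i, (L c).restrict hW (b i) = ((hsym.eigenvalues hn' i : ℝ) : ℂ) • b i :=
    fun i => hsym.apply_eigenvectorBasis hn' i
  refine ⟨hsym.eigenvalues hn' i0, ?_, ?_⟩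
  · intro f hf
    set w : W := ⟨f, hf⟩ with hw
    have h1 : inner ℂ f (L c f) = inner ℂ w ((L c).restrict hW w) := rfl
    have h2 : ‖f‖ = ‖w‖ := rfl
    rw [h1, h2, ← b.sum_inner_mul_inner, Complex.re_sum,
      ← b.sum_sq_norm_inner_right w, Finset.mul_sum]
    refine Finset.sum_le_sum (fun i _ => ?_)
    have h4 : inner ℂ (b i) ((L c).restrict hW w)
        = ((hsym.eigenvalues hn' i : ℝ) : ℂ) * inner ℂ (b i) w := by
      rw [← hsym (b i) w, hbi]
      have h5 := inner_smul_left (𝕜 := ℂ) (b i) w ((hsym.eigenvalues hn' i : ℝ) : ℂ)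
      rw [Complex.conj_ofReal] at h5
      exact h5
    rw [h4]
    have h3 : inner ℂ w (b i) * (((hsym.eigenvalues hn' i : ℝ) : ℂ) * inner ℂ (b i) w)
        = ((hsym.eigenvalues hn' i * ‖inner ℂ (b i) w‖ ^ 2 : ℝ) : ℂ) := by
      have h6 : inner ℂ w (b i) = (starRingEnd ℂ) (inner ℂ (b i) w) :=
        (inner_conj_symm (𝕜 := ℂ) w (b i)).symm
      rw [h6]
      push_cast
      rw [← Complex.conj_mul']
      ring
    rw [h3, Complex.ofReal_re]
    exact mul_le_mul_of_nonneg_right (hi0 i) (by positivity)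
  · refine ⟨(b i0 : EuclideanSpace ℂ G), (b i0).2, ?_, ?_⟩
    · intro h
      exact b.orthonormal.ne_zero i0 (Subtype.ext h)
    · exact congrArg (Subtype.val) (hbi i0)

/-- A minimal invariant subspace. -/
theorem exists_min {W0 : Submodule ℂ (EuclideanSpace ℂ G)} (h0 : W0 ≠ ⊥)
    (hinv : ∀ g, ∀ f ∈ W0, R g f ∈ W0) :
    ∃ W ≤ W0, W ≠ ⊥ ∧ (∀ g, ∀ f ∈ W, R g f ∈ W) ∧
      ∀ W' ≤ W, W' ≠ ⊥ → (∀ g, ∀ f ∈ W', R g f ∈ W') → W' = W := by
  obtain ⟨W, ⟨h1, h2, h3⟩, hmin⟩ := (wellFounded_lt (α := Submodule ℂ (EuclideanSpace ℂ G))).has_min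
    {W | W ≤ W0 ∧ W ≠ ⊥ ∧ ∀ g, ∀ f ∈ W, R g f ∈ W} ⟨W0, le_refl _, h0, hinv⟩
  refine ⟨W, h1, h2, h3, fun W' hW' hb hi => ?_⟩
  by_contra hne
  exact hmin W' ⟨hW'.trans h1, hb, hi⟩ (lt_of_le_of_ne hW' hne)

/-- On a minimal invariant subspace every class average is a scalar. -/
theorem T_scalar {W : Submodule ℂ (EuclideanSpace ℂ G)} (h0 : W ≠ ⊥)
    (hW : ∀ g, ∀ f ∈ W, R g f ∈ W)
    (hmin : ∀ W' ≤ W, W' ≠ ⊥ → (∀ g, ∀ f ∈ W', R g f ∈ W') → W' = W) (g : G) :
    ∃ a : ℂ, ∀ f ∈ W, T g f = a • f := by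
  have hT : ∀ f ∈ W, T g f ∈ W := fun f hf => T_mem hW g hf
  have : Nontrivial W := Submodule.nontrivial_iff_ne_bot.mpr h0
  obtain ⟨a, ha⟩ := Module.End.exists_eigenvalue ((T g).restrict hT)
  obtain ⟨w, hw⟩ := ha.exists_hasEigenvector
  refine ⟨a, ?_⟩
  have hE : ∀ f, f ∈ Module.End.eigenspace (T g) a ↔ T g f = a • f :=
    fun f => Module.End.mem_eigenspace_iff
  have h1 := hmin (W ⊓ Module.End.eigenspace (T g) a) inf_le_left ?_ ?_
  · intro f hf
    rw [← h1] at hf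
    exact (hE f).mp hf.2
  · intro hb
    have hmem : (w : EuclideanSpace ℂ G) ∈ W ⊓ Module.End.eigenspace (T g) a :=
      ⟨w.2, (hE _).mpr (congrArg Subtype.val hw.apply_eq_smul)⟩
    rw [hb, Submodule.mem_bot] at hmem
    exact hw.2 (Subtype.ext hmem)
  · intro h f hf
    refine ⟨hW h f hf.1, (hE _).mpr ?_⟩
    rw [← R_T, (hE f).mp hf.2, map_smul]

/-- The spectral step: a common eigenvector of all class averages. -/
theorem spec [Fintype (commutator G)] {c : G → ℝ} (hs : ∀ g, c g⁻¹ = c g)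
    (hc : ∀ g h, c (h * g * h⁻¹) = c g) {f0 : EuclideanSpace ℂ G} (hf0 : f0 ≠ 0)
    (hf0' : f0 ∈ V G) :
    ∃ (α : G → ℂ) (ξ : EuclideanSpace ℂ G), ‖ξ‖ = 1 ∧ ξ ∈ V G ∧ (∀ g, T g ξ = α g • ξ) ∧
      ∀ f ∈ V G, 2 * (∑ g, c g * (1 - (α g).re)) * ‖f‖ ^ 2
        ≤ ∑ g, c g * ∑ x, ‖f (x * g) - f x‖ ^ 2 := by
  have hV : ∀ g, ∀ f ∈ V G, R g f ∈ V G := fun g f hf => R_mem_V g hf
  have hVne : V G ≠ ⊥ := by
    intro h
    rw [h, Submodule.mem_bot] at hf0'
    exact hf0 hf0'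
  obtain ⟨lam, hlam, f1, hf1V, hf1, hf1L⟩ :=
    exists_top hs (V G) (fun f hf => sum_smul_mem hV c hf) hVne
  have hE : ∀ f, f ∈ Module.End.eigenspace (L c) (lam : ℂ) ↔ L c f = (lam : ℂ) • f :=
    fun f => Module.End.mem_eigenspace_iff
  have hA : V G ⊓ Module.End.eigenspace (L c) (lam : ℂ) ≠ ⊥ := by
    intro hb
    have h7 : f1 ∈ V G ⊓ Module.End.eigenspace (L c) (lam : ℂ) := ⟨hf1V, (hE _).mpr hf1L⟩
    rw [hb, Submodule.mem_bot] at h7
    exact hf1 h7
  have hB : ∀ g, ∀ f ∈ V G ⊓ Module.End.eigenspace (L c) (lam : ℂ),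
      R g f ∈ V G ⊓ Module.End.eigenspace (L c) (lam : ℂ) := by
    intro g f hf
    refine ⟨hV g f hf.1, (hE _).mpr ?_⟩
    rw [← R_L hc, (hE f).mp hf.2, map_smul]
  obtain ⟨W, hW0, hWne, hW, hmin⟩ := exists_min hA hB
  choose α hα using T_scalar hWne hW hmin
  obtain ⟨w, hwW, hw⟩ := Submodule.exists_mem_ne_zero_of_ne_bot hWne
  have hwn : (‖w‖ : ℝ) ≠ 0 := norm_ne_zero_iff.mpr hw
  obtain ⟨ξ, hξ⟩ : ∃ ξ : EuclideanSpace ℂ G, ξ = ((‖w‖⁻¹ : ℝ) : ℂ) • w := ⟨_, rfl⟩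
  have hξW : ξ ∈ W := by
    rw [hξ]
    exact Submodule.smul_mem _ _ hwW
  have hξn : ‖ξ‖ = 1 := by
    rw [hξ, norm_smul, Complex.norm_real, norm_inv, norm_norm, inv_mul_cancel₀ hwn]
  refine ⟨α, ξ, hξn, (hW0 hξW).1, fun g => hα g ξ hξW, fun f hf => ?_⟩
  have hLξ : L c ξ = (lam : ℂ) • ξ := (hE ξ).mp (hW0 hξW).2
  have h1 : (∑ g, (c g : ℂ) * α g) • ξ = (lam : ℂ) • ξ := by
    rw [← hLξ, L_eq_sum_T hc, Finset.sum_smul]
    refine Finset.sum_congr rfl (fun g _ => ?_)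
    rw [hα g ξ hξW, smul_smul]
  have hξ0 : ξ ≠ 0 := by
    intro h
    rw [h, norm_zero] at hξn
    exact zero_ne_one hξn
  have h2 : (∑ g, (c g : ℂ) * α g) = (lam : ℂ) := smul_left_injective ℂ hξ0 h1
  have h3 : ∑ g, c g * (α g).re = lam := by
    have h6 := congrArg Complex.re h2
    rw [Complex.re_sum, Complex.ofReal_re] at h6
    rw [← h6]
    exact Finset.sum_congr rfl (fun g _ => (Complex.re_ofReal_mul _ _).symm)
  rw [energy]
  have h4 := hlam f hf
  have h5 : ∑ g, c g * (1 - (α g).re) = ∑ g, c g - lam := by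
    rw [← h3, ← Finset.sum_sub_distrib]
    exact Finset.sum_congr rfl (fun g _ => by ring)
  rw [h5]
  nlinarith

end Vale.Agent.P318.R2.H678
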