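import Vale.Agent.P318.R2.H678.SympDef

/-!
# Transvections and radicals of points: basic computations
-/

namespace Vale.Agent.P318.R2.H678

variable {G K V : Type*} [Group G] [Field K] [AddCommGroup V] [Module K V]

namespace Sy

variable (S : Sy G K V)

theorem ext {g h : G} (H : ∀ x, S.r g x = S.r h x) : g = h :=
  S.inj (LinearMap.ext H)

theorem r_mul (g h : G) (x : V) : S.r (g * h) x = S.r g (S.r h x) := by
  rw [map_mul]; rfl

theorem r_one (x : V) : S.r 1 x = x := by
  rw [map_one]; rfl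

theorem r_inv (g : G) (x : V) : S.r g⁻¹ (S.r g x) = x := by
  rw [← S.r_mul, inv_mul_cancel, S.r_one]

theorem r_inv' (g : G) (x : V) : S.r g (S.r g⁻¹ x) = x := by
  rw [← S.r_mul, mul_inv_cancel, S.r_one]

theorem r_ne (g : G) {x : V} (hx : x ≠ 0) : S.r g x ≠ 0 := by
  intro h
  apply hx
  rw [← S.r_inv g x, h, map_zero]

theorem neg (x y : V) : S.B y x = - S.B x y := by
  have h := S.alt (x + y)
  rw [map_add, map_add, LinearMap.add_apply, LinearMap.add_apply, S.alt, S.alt, zero_add,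
    add_zero] at h
  exact eq_neg_of_add_eq_zero_left h

theorem comm0 {x y : V} (h : S.B x y = 0) : S.B y x = 0 := by
  rw [S.neg, h, neg_zero]

theorem comm_ne {x y : V} (h : S.B x y ≠ 0) : S.B y x ≠ 0 := by
  rw [S.neg]; exact neg_ne_zero.2 h

theorem pres' (g : G) (x y : V) : S.B x (S.r g y) = S.B (S.r g⁻¹ x) y := by
  rw [← S.pres g (S.r g⁻¹ x) y, S.r_inv']

theorem t_add (v : V) (a b : K) : S.t v a * S.t v b = S.t v (a + b) := by
  apply S.ext
  intro x
  rw [S.r_mul, S.t_apply, S.t_apply, S.t_apply, map_add, map_smul, LinearMap.add_apply,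
    LinearMap.smul_apply, S.alt, smul_zero, add_zero]
  module

theorem t_zero (v : V) : S.t v 0 = 1 := by
  apply S.ext
  intro x
  rw [S.t_apply, zero_mul, zero_smul, add_zero, S.r_one]

theorem t_inv (v : V) (a : K) : (S.t v a)⁻¹ = S.t v (-a) := by
  symm
  apply eq_inv_of_mul_eq_one_left
  rw [S.t_add, neg_add_cancel, S.t_zero]

theorem t_smul (v : V) (a c : K) : S.t (c • v) a = S.t v (c ^ 2 * a) := by
  apply S.ext
  intro x
  rw [S.t_apply, S.t_apply, map_smul, smul_smul, smul_eq_mul]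
  congr 2
  ring

theorem t_conj (g : G) (v : V) (a : K) : g * S.t v a * g⁻¹ = S.t (S.r g v) a := by
  apply S.ext
  intro x
  rw [S.r_mul, S.r_mul, S.t_apply, S.t_apply, map_add, map_smul, S.r_inv', S.pres']

/-- A commutator with a transvection. -/
theorem t_comm (g : G) (v : V) (a : K) :
    g * (S.t v a * g⁻¹ * (S.t v a)⁻¹) = S.t (S.r g v) a * S.t v (-a) := by
  rw [← S.t_conj, ← S.t_inv]
  group

theorem t_move {v w : V} (h : S.B v w ≠ 0) : S.r (S.t (w - v) (S.B v w)⁻¹) v = w := by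
  rw [S.t_apply, map_sub, S.alt, sub_zero, inv_mul_cancel₀ h, one_smul, add_sub_cancel]

/-- The elements of the radical of the point `y`. -/
def E (y u : V) (β : K) : G := S.t (y + u) 1 * S.t u (-1) * S.t y (β - 1)

theorem E_apply {y u : V} (h : S.B u y = 0) (β : K) (x : V) :
    S.r (S.E y u β) x = x + S.B x y • u + S.B x u • y + (β * S.B x y) • y := by
  have h' := S.comm0 h
  unfold E
  rw [S.r_mul, S.r_mul, S.t_apply, S.t_apply, S.t_apply]
  simp only [map_add, map_smul, LinearMap.add_apply, LinearMap.smul_apply, smul_eq_mul, S.alt,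
    h, h', mul_zero, add_zero, zero_add]
  module

theorem E_mul {y u u' : V} (h : S.B u y = 0) (h' : S.B u' y = 0) (β β' : K) :
    S.E y u β * S.E y u' β' = S.E y (u + u') (β + β' + S.B u' u) := by
  have hu : S.B (u + u') y = 0 := by
    rw [map_add, LinearMap.add_apply, h, h', add_zero]
  have h1 := S.comm0 h
  have h2 := S.comm0 h'
  apply S.ext
  intro x
  rw [S.r_mul, S.E_apply h', S.E_apply h, S.E_apply hu]
  simp only [map_add, map_smul, LinearMap.add_apply, LinearMap.smul_apply, smul_eq_mul, S.alt,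
    h, h', h1, h2, mul_zero, add_zero, zero_add]
  module

theorem E_zero (y : V) (β : K) : S.E y 0 β = S.t y β := by
  apply S.ext
  intro x
  rw [S.E_apply (by rw [map_zero]; rfl), S.t_apply, map_zero]
  module

theorem E_one (y : V) : S.E y 0 0 = 1 := by
  rw [S.E_zero, S.t_zero]

theorem E_inv {y u : V} (h : S.B u y = 0) (β : K) : (S.E y u β)⁻¹ = S.E y (-u) (-β) := by
  symm
  apply eq_inv_of_mul_eq_one_left
  have h' : S.B (-u) y = 0 := by rw [map_neg, LinearMap.neg_apply, h, neg_zero]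
  rw [S.E_mul h' h, map_neg, S.alt, neg_add_cancel, neg_add_cancel, neg_zero, add_zero, S.E_one]

theorem E_conj (g : G) {y u : V} (h : S.B u y = 0) (β : K) :
    g * S.E y u β * g⁻¹ = S.E (S.r g y) (S.r g u) β := by
  unfold E
  rw [← map_add, ← S.t_conj, ← S.t_conj, ← S.t_conj]
  group

/-- An element of the radical from a product of two transvections. -/
theorem tt_E {y z : V} (h : S.B z y = 0) : S.t (z + y) 1 * S.t z (-1) = S.E y z 1 := by
  unfold E
  rw [sub_self, S.t_zero, mul_one, add_comm]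

/-- The functionals of two vectors, one not a multiple of the other. -/
theorem exists_sep {e v : V} (he : e ≠ 0) (hv : ∀ c : K, v ≠ c • e) :
    ∃ u, S.B u e = 0 ∧ S.B u v ≠ 0 := by
  obtain ⟨f, hf⟩ : ∃ f, S.B f e ≠ 0 := by
    by_contra hc
    push Not at hc
    exact he (S.nd e fun y => S.comm0 (hc y))
  by_contra hc
  push Not at hc
  apply hv (S.B f v / S.B f e)
  rw [← sub_eq_zero]
  apply S.nd
  intro x
  apply S.comm0
  have h1 := hc (x - (S.B x e / S.B f e) • f) (by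
    rw [map_sub, map_smul, LinearMap.sub_apply, LinearMap.smul_apply, smul_eq_mul,
      div_mul_cancel₀ _ hf, sub_self])
  rw [map_sub, map_smul, LinearMap.sub_apply, LinearMap.smul_apply, smul_eq_mul] at h1
  rw [map_sub, map_smul, smul_eq_mul]
  rw [← h1]
  field_simp

theorem exists_ne {e : V} (he : e ≠ 0) : ∃ f, S.B f e ≠ 0 := by
  by_contra hc
  push Not at hc
  exact he (S.nd e fun y => S.comm0 (hc y))

theorem exists_one {e : V} (he : e ≠ 0) : ∃ f, S.B f e = 1 := by
  obtain ⟨f, hf⟩ := S.exists_ne he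
  refine ⟨(S.B f e)⁻¹ • f, ?_⟩
  rw [map_smul, LinearMap.smul_apply, smul_eq_mul, inv_mul_cancel₀ hf]

/-- Two nonzero functionals are nonzero at a common vector. -/
theorem exists_both {a b : V} (ha : a ≠ 0) (hb : b ≠ 0) : ∃ u, S.B u a ≠ 0 ∧ S.B u b ≠ 0 := by
  obtain ⟨u, hu⟩ := S.exists_ne ha
  obtain ⟨u', hu'⟩ := S.exists_ne hb
  by_cases h1 : S.B u b = 0
  · by_cases h2 : S.B u' a = 0
    · refine ⟨u + u', ?_, ?_⟩
      · rwa [map_add, LinearMap.add_apply, h2, add_zero]
      · rwa [map_add, LinearMap.add_apply, h1, zero_add]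
    · exact ⟨u', h2, hu'⟩
  · exact ⟨u, hu, h1⟩

/-- Transitivity on nonzero vectors. -/
theorem trans_one {v w : V} (hv : v ≠ 0) (hw : w ≠ 0) : ∃ g : G, S.r g v = w := by
  obtain ⟨u, h1, h2⟩ := S.exists_both hv hw
  refine ⟨S.t (w - u) (S.B u w)⁻¹ * S.t (u - v) (S.B v u)⁻¹, ?_⟩
  rw [S.r_mul, S.t_move (S.comm_ne h1), S.t_move h2]

/-- Common vector for the functionals of two vectors on the orthogonal space of `y`. -/
theorem exists_both_perp {y a b : V} (hy : y ≠ 0) (ha : ∀ c : K, a ≠ c • y)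
    (hb : ∀ c : K, b ≠ c • y) : ∃ u, S.B u y = 0 ∧ S.B u a ≠ 0 ∧ S.B u b ≠ 0 := by
  obtain ⟨u, hu0, hu⟩ := S.exists_sep hy ha
  obtain ⟨u', hu0', hu'⟩ := S.exists_sep hy hb
  by_cases h1 : S.B u b = 0
  · by_cases h2 : S.B u' a = 0
    · refine ⟨u + u', ?_, ?_, ?_⟩
      · rw [map_add, LinearMap.add_apply, hu0, hu0', add_zero]
      · rwa [map_add, LinearMap.add_apply, h2, add_zero]
      · rwa [map_add, LinearMap.add_apply, h1, zero_add]
    · exact ⟨u', hu0', h2, hu'⟩
  · exact ⟨u, hu0, hu, h1⟩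

/-- The stabilizer of `y` moves `a` to `b` when `B a b ≠ 0`. -/
theorem move_perp {y a b : V} (ha : S.B a y = 0) (hb : S.B b y = 0) (h : S.B a b ≠ 0) :
    ∃ g : G, S.r g y = y ∧ S.r g a = b := by
  refine ⟨S.t (b - a) (S.B a b)⁻¹, ?_, S.t_move h⟩
  rw [S.t_apply, map_sub, S.comm0 ha, S.comm0 hb, sub_zero, mul_zero, zero_smul, add_zero]

/-- Transitivity on pairs of orthogonal independent vectors. -/
theorem trans_two {y y' a b : V} (hy : y ≠ 0) (hy' : y' ≠ 0) (ha0 : S.B a y = 0)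
    (hb0 : S.B b y' = 0) (ha : ∀ c : K, a ≠ c • y) (hb : ∀ c : K, b ≠ c • y') :
    ∃ g : G, S.r g y = y' ∧ S.r g a = b := by
  obtain ⟨g, hg⟩ := S.trans_one hy hy'
  have h1 : S.B (S.r g a) y' = 0 := by rw [← hg, S.pres, ha0]
  have h2 : ∀ c : K, S.r g a ≠ c • y' := by
    intro c hc
    apply ha c
    rw [← S.r_inv g a, hc, ← hg, map_smul, S.r_inv]
  obtain ⟨u, hu0, hu1, hu2⟩ := S.exists_both_perp hy' h2 hb
  obtain ⟨g1, h3, h4⟩ := S.move_perp h1 hu0 (S.comm_ne hu1)
  obtain ⟨g2, h5, h6⟩ := S.move_perp hu0 hb0 hu2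
  refine ⟨g2 * (g1 * g), ?_, ?_⟩
  · rw [S.r_mul, S.r_mul, hg, h3, h5]
  · rw [S.r_mul, S.r_mul, h4, h6]

end Sy

end Vale.Agent.P318.R2.H678
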