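import Mathlib

/-!
# Groups acting as isometries of a nondegenerate alternating form

`Sy G K V`: the group `G` acts faithfully by isometries of a nondegenerate alternating form on the
`K`-space `V`, and all transvections of the form come from `G`.
-/

namespace Vale.Agent.P318.R2.H678

/-- A faithful action of `G` by isometries of a nondegenerate alternating form `B` on `V`, such
that all transvections `x ↦ x + a B(x, v) v` come from elements of `G`. -/
structure Sy (G K V : Type*) [Group G] [Field K] [AddCommGroup V] [Module K V] where
  /-- the action -/
  r : G →* Module.End K V
  inj : Function.Injective r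
  /-- the form -/
  B : V →ₗ[K] V →ₗ[K] K
  alt : ∀ x, B x x = 0
  nd : ∀ x, (∀ y, B x y = 0) → x = 0
  pres : ∀ g x y, B (r g x) (r g y) = B x y
  /-- the transvections -/
  t : V → K → G
  t_apply : ∀ v a x, r (t v a) x = x + (a * B x v) • v

end Vale.Agent.P318.R2.H678
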