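import Vale.Agent.P318.R2.H678.SympBase
import Vale.Agent.P318.R2.H402.TwoDef

/-!
# Every element of the radical of a point is a product of few conjugates
-/

namespace Vale.Agent.P318.R2.H678

open Vale.Agent.P318.R2.H402 (Pr)

variable {G K V : Type*} [Group G] [Field K] [AddCommGroup V] [Module K V]

theorem indep_symm {v w : V} (hv : v ≠ 0) (h : ∀ c : K, w ≠ c • v) : ∀ c : K, v ≠ c • w := by
  intro c hc
  by_cases h0 : c = 0
  · rw [h0, zero_smul] at hc; exact hv hc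
  · apply h c⁻¹
    rw [hc, smul_smul, inv_mul_cancel₀ h0, one_smul]

theorem mul_conj_eq (h a b : G) : h * a * h⁻¹ * (h * b * h⁻¹) = h * (a * b) * h⁻¹ := by
  group

namespace Sy

variable (S : Sy G K V)

/-- Step 2: a product of two opposite transvections in orthogonal directions. -/
theorem step2 (hp : ∀ v w : V, ∃ u, u ≠ 0 ∧ S.B u v = 0 ∧ S.B u w = 0) {g : G} {v : V}
    (hg : ∀ c : K, S.r g v ≠ c • v) :
    ∃ a b : V, a ≠ 0 ∧ S.B a b = 0 ∧ (∀ c : K, b ≠ c • a) ∧
      Pr 4 g (S.t a 1 * S.t b (-1)) := by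
  have hv : v ≠ 0 := by
    intro h0
    apply hg 0
    rw [h0, map_zero, smul_zero]
  have h2 : Pr 2 g (S.t (S.r g v) 1 * S.t v (-1)) := by
    have := (Pr.self g).comm (S.t v 1)
    rwa [S.t_comm] at this
  by_cases h0 : S.B v (S.r g v) = 0
  · exact ⟨S.r g v, v, S.r_ne g hv, S.comm0 h0, indep_symm hv hg, h2.mono (by norm_num)⟩
  · obtain ⟨u, hu0, hu1, hu2⟩ := hp v (S.r g v)
    set w := S.r g v with hw
    set k := S.B v w with hk
    have hu' : S.B (k⁻¹ • u) w = 0 := by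
      rw [map_smul, LinearMap.smul_apply, hu2, smul_zero]
    have e1 : S.r (S.E w (k⁻¹ • u) 0) w = w := by
      rw [S.E_apply hu', S.alt, S.comm0 hu']
      module
    have e2 : S.r (S.E w (k⁻¹ • u) 0) v = v + u := by
      rw [S.E_apply hu', map_smul, S.comm0 hu1, ← hk, smul_smul, mul_inv_cancel₀ h0]
      module
    refine ⟨v, v + u, hv, ?_, ?_, ?_⟩
    · rw [map_add, S.alt, S.comm0 hu1, add_zero]
    · intro c hc
      have h3 : u = (c - 1) • v := by
        rw [sub_smul, ← hc, one_smul, add_sub_cancel_left]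
      have h4 : (c - 1) * k = 0 := by
        have h5 := hu2
        rw [h3, map_smul, LinearMap.smul_apply, smul_eq_mul] at h5
        exact h5
      rcases mul_eq_zero.1 h4 with h5 | h5
      · apply hu0
        rw [h3, h5, zero_smul]
      · exact h0 h5
    · have h5 := h2.inv.mul (h2.conj (S.E w (k⁻¹ • u) 0))
      have h6 : (S.t w 1 * S.t v (-1))⁻¹ *
          (S.E w (k⁻¹ • u) 0 * (S.t w 1 * S.t v (-1)) * (S.E w (k⁻¹ • u) 0)⁻¹) =
          S.t v 1 * S.t (v + u) (-1) := by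
        have h7 : S.E w (k⁻¹ • u) 0 * (S.t w 1 * S.t v (-1)) * (S.E w (k⁻¹ • u) 0)⁻¹ =
            S.t w 1 * S.t (v + u) (-1) := by
          have h8 := S.t_conj (S.E w (k⁻¹ • u) 0) w 1
          have h9 := S.t_conj (S.E w (k⁻¹ • u) 0) v (-1)
          rw [e1] at h8
          rw [e2] at h9
          rw [← mul_conj_eq, h8, h9]
        rw [h7, mul_inv_rev, S.t_inv, S.t_inv, neg_neg, mul_assoc, ← mul_assoc (S.t w (-1)),
          S.t_add, neg_add_cancel, S.t_zero, one_mul]
      rw [h6] at h5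
      exact h5

/-- Step 3: an element of a radical. -/
theorem step3 {g : G} {a b : V} (ha : a ≠ 0) (hab : S.B a b = 0) (hb : ∀ c : K, b ≠ c • a)
    {m : ℕ} (h : Pr m g (S.t a 1 * S.t b (-1))) :
    ∃ y z : V, y ≠ 0 ∧ S.B z y = 0 ∧ (∀ c : K, z ≠ c • y) ∧ Pr (m + m) g (S.E y z 1) := by
  have hb0 : b ≠ 0 := by
    intro h0
    apply hb 0
    rw [h0, zero_smul]
  obtain ⟨u, hu1, hu2⟩ := S.exists_sep ha hb
  obtain ⟨u', hu1', hu2'⟩ := S.exists_sep hb0 (indep_symm ha hb)
  obtain ⟨z, hz1, hz2⟩ : ∃ z, S.B z a = 1 ∧ S.B z b = 1 := by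
    refine ⟨(S.B u b)⁻¹ • u + (S.B u' a)⁻¹ • u', ?_, ?_⟩
    · simp only [map_add, map_smul, LinearMap.add_apply, LinearMap.smul_apply, smul_eq_mul, hu1]
      rw [inv_mul_cancel₀ hu2', mul_zero, zero_add]
    · simp only [map_add, map_smul, LinearMap.add_apply, LinearMap.smul_apply, smul_eq_mul, hu1']
      rw [inv_mul_cancel₀ hu2, mul_zero, add_zero]
  have hzy : S.B z (a - b) = 0 := by rw [map_sub, hz1, hz2, sub_self]
  refine ⟨a - b, z, ?_, hzy, ?_, ?_⟩
  · intro h0
    apply hb 1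
    rw [one_smul]
    exact (sub_eq_zero.1 h0).symm
  · intro c hc
    have h1 : S.B z a = c * S.B (a - b) a := by
      conv_lhs => rw [hc]
      rw [map_smul, LinearMap.smul_apply, smul_eq_mul]
    rw [hz1, map_sub, LinearMap.sub_apply, S.alt, S.comm0 hab, sub_zero, mul_zero] at h1
    exact one_ne_zero h1
  · have h1 := h.comm (S.t z 1)
    rw [S.t_comm] at h1
    have h2 : S.r (S.t a 1 * S.t b (-1)) z = z + (a - b) := by
      rw [S.r_mul, S.t_apply, S.t_apply]
      simp only [map_add, map_smul, LinearMap.add_apply, LinearMap.smul_apply, smul_eq_mul, hz1,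
        hz2, S.comm0 hab]
      module
    rw [h2, S.tt_E hzy] at h1
    exact h1

/-- Step 4: all these elements of the radicals. -/
theorem step4 {g : G} {y z : V} (hy : y ≠ 0) (hz : S.B z y = 0) (hzy : ∀ c : K, z ≠ c • y)
    {m : ℕ} (h : Pr m g (S.E y z 1)) {y' u : V} (hy' : y' ≠ 0) (hu : S.B u y' = 0)
    (huy : ∀ c : K, u ≠ c • y') : Pr m g (S.E y' u 1) := by
  obtain ⟨s, h1, h2⟩ := S.trans_two hy hy' hz hu hzy huy
  have h3 := h.conj s
  rwa [S.E_conj s hz, h1, h2] at h3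

/-- Step 5: a transvection from three of these elements. -/
theorem E_three {y u u' : V} (hu : S.B u y = 0) (hu' : S.B u' y = 0) (h : S.B u' u = 0) :
    S.E y u 1 * S.E y u' 1 * (S.E y (u + u') 1)⁻¹ = S.t y 1 := by
  have h1 : S.B (u + u') y = 0 := by rw [map_add, LinearMap.add_apply, hu, hu', add_zero]
  have h2 : S.B (-(u + u')) y = 0 := by rw [map_neg, LinearMap.neg_apply, h1, neg_zero]
  rw [S.E_inv h1, S.E_mul hu hu', S.E_mul h1 h2, h, map_neg, LinearMap.neg_apply, S.alt,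
    add_neg_cancel, ← S.E_zero]
  congr 1
  ring

theorem t_zero' (a : K) : S.t 0 a = 1 := by
  apply S.ext
  intro x
  rw [S.t_apply, smul_zero, add_zero, S.r_one]

/-- All transvections with parameter one, more than two elements in the field. -/
theorem allT (hp : ∀ v w : V, ∃ u, u ≠ 0 ∧ S.B u v = 0 ∧ S.B u w = 0)
    {l : K} (hl0 : l ≠ 0) (hl1 : 1 + l ≠ 0) {g : G} {v : V}
    (hg : ∀ c : K, S.r g v ≠ c • v) (y' : V) : Pr 24 g (S.t y' 1) := by
  by_cases hy' : y' = 0
  · rw [hy', S.t_zero']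
    exact Pr.one _ _
  obtain ⟨a, b, ha, hab, hb, h4⟩ := S.step2 hp hg
  obtain ⟨y, z, hy, hz, hzy, h8⟩ := S.step3 ha hab hb h4
  obtain ⟨s, hs⟩ := S.trans_one hy hy'
  have hu : S.B (S.r s z) y' = 0 := by rw [← hs, S.pres, hz]
  have hu2 : ∀ c : K, S.r s z ≠ c • y' := by
    intro c hc
    apply hzy c
    rw [← S.r_inv s z, hc, ← hs, map_smul, S.r_inv]
  set u := S.r s z with hudef
  have hsm : ∀ k : K, k ≠ 0 → ∀ c : K, k • u ≠ c • y' := by
    intro k hk c hc
    apply hu2 (k⁻¹ * c)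
    rw [mul_smul, ← hc, smul_smul, inv_mul_cancel₀ hk, one_smul]
  have hb' : ∀ k : K, S.B (k • u) y' = 0 := by
    intro k
    rw [map_smul, LinearMap.smul_apply, hu, smul_zero]
  have e1 := S.step4 hy hz hzy h8 hy' hu hu2
  have e2 := S.step4 hy hz hzy h8 hy' (hb' l) (hsm l hl0)
  have e3 := S.step4 hy hz hzy h8 hy' (hb' (1 + l)) (hsm (1 + l) hl1)
  have e4 := (e1.mul e2).mul e3.inv
  have e5 : (1 + l) • u = u + l • u := by rw [add_smul, one_smul]
  rw [e5, S.E_three hu (hb' l) (by rw [map_smul, LinearMap.smul_apply, S.alt, smul_zero])] at e4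
  exact e4

/-- All transvections. -/
theorem allT2 (sq : ∀ a : K, ∃ c d : K, a = c ^ 2 + d ^ 2) {m : ℕ} {g : G}
    (h : ∀ v : V, Pr m g (S.t v 1)) (v : V) (a : K) : Pr (m + m) g (S.t v a) := by
  obtain ⟨c, d, rfl⟩ := sq a
  rw [← S.t_add]
  have h1 := h (c • v)
  have h2 := h (d • v)
  rw [S.t_smul, mul_one] at h1 h2
  exact h1.mul h2

/-- All elements of the radicals. -/
theorem allE (sq : ∀ a : K, ∃ c d : K, a = c ^ 2 + d ^ 2) {m : ℕ} {g : G}
    (h : ∀ v : V, Pr m g (S.t v 1)) (y u : V) (b : K) : Pr (4 * m) g (S.E y u b) := by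
  have h1 := h (y + u)
  have h2 := (h u).inv
  rw [S.t_inv] at h2
  have h3 := (h1.mul h2).mul (S.allT2 sq h y (b - 1))
  exact h3.mono (by omega)

/-- The radical of a point, as a subgroup. -/
def Rad (e : V) : Subgroup G where
  carrier := {g | ∃ (u : V) (b : K), S.B u e = 0 ∧ g = S.E e u b}
  one_mem' := ⟨0, 0, by rw [map_zero]; rfl, by rw [S.E_one]⟩
  mul_mem' := by
    rintro _ _ ⟨u, b, hu, rfl⟩ ⟨u', b', hu', rfl⟩
    exact ⟨u + u', _, by rw [map_add, LinearMap.add_apply, hu, hu', add_zero],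
      S.E_mul hu hu' b b'⟩
  inv_mem' := by
    rintro _ ⟨u, b, hu, rfl⟩
    exact ⟨-u, _, by rw [map_neg, LinearMap.neg_apply, hu, neg_zero], S.E_inv hu b⟩

theorem E_mem_Rad {e u : V} (hu : S.B u e = 0) (b : K) : S.E e u b ∈ S.Rad e := ⟨u, b, hu, rfl⟩

theorem t_mem_Rad (e : V) (a : K) : S.t e a ∈ S.Rad e := by
  rw [← S.E_zero]
  exact S.E_mem_Rad (by rw [map_zero]; rfl) a

theorem rad_move {e x x' : V} (h : S.B x e ≠ 0) (h' : S.B x' e = S.B x e) :
    ∃ g ∈ S.Rad e, S.r g x = x' := by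
  have hu : S.B ((S.B x e)⁻¹ • (x' - x)) e = 0 := by
    rw [map_smul, LinearMap.smul_apply, map_sub, LinearMap.sub_apply, h', sub_self, smul_zero]
  refine ⟨_, S.E_mem_Rad hu (-(S.B x ((S.B x e)⁻¹ • (x' - x)) / S.B x e)), ?_⟩
  rw [S.E_apply hu, neg_mul, div_mul_cancel₀ _ h, smul_smul, mul_inv_cancel₀ h]
  module

theorem orbit {e f : V} (hef : S.B e f = 1) {H : Subgroup G} (h1 : S.Rad e ≤ H)
    (h2 : S.Rad f ≤ H) {v : V} (hv : v ≠ 0) : ∃ g ∈ H, S.r g e = v := by
  have hfe : S.B f e = -1 := by rw [S.neg, hef]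
  have hef0 : S.B e f ≠ 0 := by rw [hef]; exact one_ne_zero
  have c1 : ∀ v : V, S.B v e ≠ 0 → ∃ g ∈ H, S.r g e = v := by
    intro v hv
    obtain ⟨g, hg, hg'⟩ := S.rad_move (e := f) (x := e) (x' := e + (-S.B v e) • f) hef0 (by
      rw [map_add, map_smul, LinearMap.add_apply, LinearMap.smul_apply, S.alt, smul_zero,
        add_zero])
    have h3 : S.B (e + (-S.B v e) • f) e = S.B v e := by
      rw [map_add, map_smul, LinearMap.add_apply, LinearMap.smul_apply, S.alt, hfe, smul_eq_mul]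
      ring
    obtain ⟨k, hk, hk'⟩ := S.rad_move (e := e) (x := e + (-S.B v e) • f) (x' := v)
      (by rw [h3]; exact hv) h3.symm
    exact ⟨k * g, H.mul_mem (h1 hk) (h2 hg), by rw [S.r_mul, hg', hk']⟩
  have c2 : ∀ v : V, S.B v e = 0 → S.B v f ≠ 0 → ∃ g ∈ H, S.r g e = v := by
    intro v hv hv'
    obtain ⟨g, hg, hg'⟩ := c1 (v + f) (by
      rw [map_add, LinearMap.add_apply, hv, hfe, zero_add]
      exact neg_ne_zero.2 one_ne_zero)
    have h3 : S.B (v + f) f = S.B v f := by rw [map_add, LinearMap.add_apply, S.alt, add_zero]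
    obtain ⟨k, hk, hk'⟩ := S.rad_move (e := f) (x := v + f) (x' := v)
      (by rw [h3]; exact hv') h3.symm
    exact ⟨k * g, H.mul_mem (h2 hk) hg, by rw [S.r_mul, hg', hk']⟩
  by_cases hve : S.B v e = 0
  · by_cases hvf : S.B v f = 0
    · have he : e ≠ 0 := by
        intro h0
        apply hef0
        rw [h0, map_zero]; rfl
      have hvn : ∀ c : K, v ≠ c • e := by
        intro c hc
        rw [hc, map_smul, LinearMap.smul_apply, hef, smul_eq_mul, mul_one] at hvf
        apply hv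
        rw [hc, hvf, zero_smul]
      obtain ⟨u, hu1, hu2⟩ := S.exists_sep he hvn
      have h4 := S.E_apply hu1 0 v
      rw [hve, zero_smul, add_zero, zero_mul, zero_smul, add_zero] at h4
      obtain ⟨g, hg, hg'⟩ := c2 (S.r (S.E e u 0) v)
        (by rw [h4, map_add, map_smul, LinearMap.add_apply, LinearMap.smul_apply, S.alt, hve,
              smul_zero, add_zero])
        (by rw [h4, map_add, map_smul, LinearMap.add_apply, LinearMap.smul_apply, hvf, hef,
              zero_add, smul_eq_mul, mul_one]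
            exact S.comm_ne hu2)
      refine ⟨(S.E e u 0)⁻¹ * g, H.mul_mem (H.inv_mem (h1 (S.E_mem_Rad hu1 0))) hg, ?_⟩
      rw [S.r_mul, hg', S.r_inv]
    · exact c2 v hve hvf
  · exact c1 v hve

end Sy

end Vale.Agent.P318.R2.H678
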