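import Vale.Agent.P318.R2.H678.SympTwo

/-!
# The symplectic matrix groups
-/

namespace Vale.Agent.P318.R2.H678

open Vale.Agent.P318.R2.H402 (Pr Two)
open Matrix

section Model

variable (l F : Type*) [Fintype l] [DecidableEq l] [Field F]

/-- the action of the symplectic matrices on vectors -/
def rSymp : symplecticGroup l F →* Module.End F (l ⊕ l → F) where
  toFun A := Matrix.mulVecLin A.1
  map_one' := by
    change Matrix.mulVecLin (1 : Matrix (l ⊕ l) (l ⊕ l) F) = 1
    rw [Matrix.mulVecLin_one]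
    rfl
  map_mul' A B := by
    change Matrix.mulVecLin (A.1 * B.1) = _
    rw [Matrix.mulVecLin_mul]
    rfl

/-- the standard alternating form -/
noncomputable def bSymp : (l ⊕ l → F) →ₗ[F] (l ⊕ l → F) →ₗ[F] F :=
  Matrix.toLinearMap₂' F (J l F)

variable {l F}

theorem bSymp_apply (x y : l ⊕ l → F) : bSymp l F x y = x ⬝ᵥ (J l F *ᵥ y) := by
  unfold bSymp
  rw [Matrix.toLinearMap₂'_apply']

theorem bSymp_alt (x : l ⊕ l → F) : bSymp l F x x = 0 := by
  rw [bSymp_apply, J, Matrix.fromBlocks_mulVec]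
  simp only [dotProduct, Fintype.sum_sum_type, Sum.elim_inl, Sum.elim_inr, Matrix.zero_mulVec,
    Matrix.neg_mulVec, Matrix.one_mulVec, Pi.add_apply, Pi.neg_apply, Pi.zero_apply,
    Function.comp, zero_add, add_zero]
  rw [← Finset.sum_add_distrib]
  apply Finset.sum_eq_zero
  intro i _
  ring

theorem bSymp_nd (x : l ⊕ l → F) (h : ∀ y, bSymp l F x y = 0) : x = 0 := by
  have h1 : x ᵥ* J l F = 0 := by
    ext i
    have := h (Pi.single i 1)
    rw [bSymp_apply, Matrix.dotProduct_mulVec, dotProduct_single_one] at this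
    simpa using this
  have h2 : (x ᵥ* J l F) ᵥ* J l F = 0 := by rw [h1, Matrix.zero_vecMul]
  rw [Matrix.vecMul_vecMul, J_squared, Matrix.vecMul_neg, Matrix.vecMul_one, neg_eq_zero] at h2
  exact h2

theorem bSymp_mulVec (A : Matrix (l ⊕ l) (l ⊕ l) F) (x y : l ⊕ l → F) :
    bSymp l F (A *ᵥ x) (A *ᵥ y) = x ⬝ᵥ ((Aᵀ * J l F * A) *ᵥ y) := by
  rw [bSymp_apply, ← Matrix.mulVec_mulVec, ← Matrix.mulVec_mulVec, Matrix.dotProduct_mulVec x,
    Matrix.vecMul_transpose]

theorem mem_of_bSymp (A : Matrix (l ⊕ l) (l ⊕ l) F)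
    (h : ∀ x y, bSymp l F (A *ᵥ x) (A *ᵥ y) = bSymp l F x y) : A ∈ symplecticGroup l F := by
  rw [SymplecticGroup.mem_iff']
  apply (Matrix.toLinearMap₂' F : Matrix (l ⊕ l) (l ⊕ l) F ≃ₗ[F]
    (l ⊕ l → F) →ₗ[F] (l ⊕ l → F) →ₗ[F] F).injective
  refine LinearMap.ext fun x => LinearMap.ext fun y => ?_
  rw [Matrix.toLinearMap₂'_apply', Matrix.toLinearMap₂'_apply', ← bSymp_mulVec, h, bSymp_apply]

theorem tSymp_mulVec (v : l ⊕ l → F) (a : F) (x : l ⊕ l → F) :
    (1 + a • Matrix.vecMulVec v (J l F *ᵥ v)) *ᵥ x = x + (a * bSymp l F x v) • v := by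
  rw [Matrix.add_mulVec, Matrix.one_mulVec, Matrix.smul_mulVec, Matrix.vecMulVec_mulVec,
    bSymp_apply, dotProduct_comm]
  ext i
  simp
  ring

theorem tSymp_mem (v : l ⊕ l → F) (a : F) :
    (1 + a • Matrix.vecMulVec v (J l F *ᵥ v)) ∈ symplecticGroup l F := by
  apply mem_of_bSymp
  intro x y
  have hneg : bSymp l F v y = - bSymp l F y v := by
    have h := bSymp_alt (y + v)
    rw [map_add, map_add, LinearMap.add_apply, LinearMap.add_apply, bSymp_alt, bSymp_alt,
      zero_add, add_zero] at h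
    exact eq_neg_of_add_eq_zero_left h
  rw [tSymp_mulVec, tSymp_mulVec]
  simp only [map_add, map_smul, LinearMap.add_apply, LinearMap.smul_apply, smul_eq_mul,
    bSymp_alt, hneg]
  ring

variable (l F)

/-- the symplectic matrix group with its natural action -/
noncomputable def sySymp : Sy (symplecticGroup l F) F (l ⊕ l → F) where
  r := rSymp l F
  inj := by
    intro A B h
    apply Subtype.ext
    exact Matrix.toLin'.injective (by
      rw [Matrix.toLin'_apply', Matrix.toLin'_apply']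
      exact h)
  B := bSymp l F
  alt := bSymp_alt
  nd := bSymp_nd
  pres := by
    intro g x y
    change bSymp l F (g.1 *ᵥ x) (g.1 *ᵥ y) = _
    rw [bSymp_mulVec, SymplecticGroup.mem_iff'.1 g.2, bSymp_apply]
  t v a := ⟨1 + a • Matrix.vecMulVec v (J l F *ᵥ v), tSymp_mem v a⟩
  t_apply := by
    intro v a x
    exact tSymp_mulVec v a x

end Model

section Perp

variable {G K V : Type*} [Group G] [Field K] [AddCommGroup V] [Module K V]

/-- nonzero vectors orthogonal to few vectors -/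
theorem Sy.exists_perp (S : Sy G K V) [FiniteDimensional K V] {k : ℕ}
    (hk : k < Module.finrank K V) (s : Fin k → V) : ∃ u, u ≠ 0 ∧ ∀ i, S.B u (s i) = 0 := by
  have h := LinearMap.ker_ne_bot_of_finrank_lt (f := LinearMap.pi fun i => S.B.flip (s i))
    (by rw [Module.finrank_fin_fun]; exact hk)
  obtain ⟨u, hu, hu0⟩ := (Submodule.ne_bot_iff _).1 h
  refine ⟨u, hu0, fun i => ?_⟩
  exact congrFun hu i

end Perp

/-- Every element of a finite field is a sum of two squares. -/
theorem two_sq {K : Type*} [Field K] [Finite K] (a : K) : ∃ c d : K, a = c ^ 2 + d ^ 2 := by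
  classical
  have := Fintype.ofFinite K
  by_cases h2 : ringChar K = 2
  · obtain ⟨c, hc⟩ := FiniteField.isSquare_of_char_two h2 a
    exact ⟨c, 0, by rw [hc]; ring⟩
  · obtain ⟨c, d, h⟩ := FiniteField.exists_root_sum_quadratic
      (f := (Polynomial.X ^ 2 : Polynomial K)) (g := Polynomial.X ^ 2 - Polynomial.C a)
      (Polynomial.degree_X_pow 2) (Polynomial.degree_X_pow_sub_C (by norm_num) a)
      (FiniteField.odd_card_of_char_ne_two h2)
    refine ⟨c, d, ?_⟩
    rw [Polynomial.eval_pow, Polynomial.eval_X, Polynomial.eval_sub, Polynomial.eval_pow,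
      Polynomial.eval_X, Polynomial.eval_C] at h
    rw [← sub_eq_zero, ← neg_eq_zero, ← h]
    ring

theorem exists_scalar {K : Type*} [Field K] [Finite K] (h : 2 < Nat.card K) :
    ∃ l : K, l ≠ 0 ∧ 1 + l ≠ 0 := by
  classical
  have := Fintype.ofFinite K
  by_contra hc
  push Not at hc
  have h1 : (Finset.univ : Finset K) ⊆ {0, -1} := by
    intro x _
    rw [Finset.mem_insert, Finset.mem_singleton]
    by_cases hx : x = 0
    · exact Or.inl hx
    · right
      have := hc x hx
      rw [add_comm] at this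
      exact eq_neg_of_add_eq_zero_left this
  have h2 := Finset.card_le_card h1
  rw [Finset.card_univ, ← Nat.card_eq_fintype_card] at h2
  have h3 := Finset.card_le_two (a := (0 : K)) (b := -1)
  omega

section Large

variable {G K V : Type*} [Group G] [Field K] [AddCommGroup V] [Module K V]

/-- All transvections with parameter one, dimension at least five, any field. -/
theorem Sy.allT' (S : Sy G K V) [FiniteDimensional K V] (hd : 4 < Module.finrank K V)
    {g : G} {v : V} (hg : ∀ c : K, S.r g v ≠ c • v) (y' : V) : Pr 24 g (S.t y' 1) := by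
  by_cases hy' : y' = 0
  · rw [hy', S.t_zero']
    exact Pr.one _ _
  have hp : ∀ v w : V, ∃ u, u ≠ 0 ∧ S.B u v = 0 ∧ S.B u w = 0 := by
    intro v w
    obtain ⟨u, hu0, hu⟩ := S.exists_perp (k := 2) (by omega) ![v, w]
    exact ⟨u, hu0, hu 0, hu 1⟩
  obtain ⟨a, b, ha, hab, hb, h4⟩ := S.step2 hp hg
  obtain ⟨y, z, hy, hz, hzy, h8⟩ := S.step3 ha hab hb h4
  obtain ⟨s, hs⟩ := S.trans_one hy hy'
  have hu : S.B (S.r s z) y' = 0 := by rw [← hs, S.pres, hz]
  have hu2 : ∀ c : K, S.r s z ≠ c • y' := by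
    intro c hc
    apply hzy c
    rw [← S.r_inv s z, hc, ← hs, map_smul, S.r_inv]
  set u := S.r s z with hudef
  obtain ⟨y1, hy1⟩ := S.exists_ne hy'
  obtain ⟨u1, hu1, hu1'⟩ := S.exists_sep hy' hu2
  obtain ⟨w, hw0, hw⟩ := S.exists_perp (k := 4) hd ![y', u, y1, u1]
  have w1 : S.B w y' = 0 := hw 0
  have w2 : S.B w u = 0 := hw 1
  have w3 : S.B w y1 = 0 := hw 2
  have w4 : S.B w u1 = 0 := hw 3
  have hw2 : ∀ c : K, w ≠ c • y' := by
    intro c hc
    have h1 : c * S.B y' y1 = 0 := by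
      rw [← w3, hc, map_smul, LinearMap.smul_apply, smul_eq_mul]
    rcases mul_eq_zero.1 h1 with h2 | h2
    · apply hw0
      rw [hc, h2, zero_smul]
    · exact hy1 (S.comm0 h2)
  have huw : ∀ c : K, u + w ≠ c • y' := by
    intro c hc
    have h1 : S.B (u + w) u1 = 0 := by
      rw [hc, map_smul, LinearMap.smul_apply, S.comm0 hu1, smul_zero]
    rw [map_add, LinearMap.add_apply, w4, add_zero] at h1
    exact hu1' (S.comm0 h1)
  have huw0 : S.B (u + w) y' = 0 := by rw [map_add, LinearMap.add_apply, hu, w1, add_zero]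
  have e1 := S.step4 hy hz hzy h8 hy' hu hu2
  have e2 := S.step4 hy hz hzy h8 hy' w1 hw2
  have e3 := S.step4 hy hz hzy h8 hy' huw0 huw
  have e4 := (e1.mul e2).mul e3.inv
  rw [S.E_three hu w1 w2] at e4
  exact e4

end Large

/-- The symplectic groups over fields with more than two elements. -/
theorem two_psp_big {n : ℕ} (hn : 2 ≤ n) (F : Type*) [Field F] [Finite F]
    (hF : 2 < Nat.card F)
    [IsSimpleGroup (symplecticGroup (Fin n) F ⧸ Subgroup.center (symplecticGroup (Fin n) F))] :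
    Two (symplecticGroup (Fin n) F ⧸ Subgroup.center (symplecticGroup (Fin n) F)) 96 := by
  set S := sySymp (Fin n) F with hS
  have hdim : Module.finrank F (Fin n ⊕ Fin n → F) = 2 * n := by
    rw [Module.finrank_fintype_fun_eq_card, Fintype.card_sum, Fintype.card_fin]
    ring
  obtain ⟨l, hl0, hl1⟩ := exists_scalar hF
  obtain ⟨f, hf0, -⟩ := S.exists_perp (k := 0) (by rw [hdim]; omega) (fun i => i.elim0)
  obtain ⟨e, he⟩ := S.exists_one hf0
  refine S.two_quot_big two_sq ?_ hl0 hl1 he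
  intro v w
  obtain ⟨u, hu0, hu⟩ := S.exists_perp (k := 2) (by rw [hdim]; omega) ![v, w]
  exact ⟨u, hu0, hu 0, hu 1⟩

/-- The symplectic groups `PSp_2n(q)`, `n ≥ 2`, `(n, q) ≠ (2, 2)`. -/
theorem two_psp {n : ℕ} (hn : 2 ≤ n) (F : Type*) [Field F] [Finite F]
    (hF : 3 ≤ n ∨ 2 < Nat.card F)
    [IsSimpleGroup (symplecticGroup (Fin n) F ⧸ Subgroup.center (symplecticGroup (Fin n) F))] :
    Two (symplecticGroup (Fin n) F ⧸ Subgroup.center (symplecticGroup (Fin n) F)) 96 := by
  rcases hF with hF | hF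
  · set S := sySymp (Fin n) F with hS
    have hdim : Module.finrank F (Fin n ⊕ Fin n → F) = 2 * n := by
      rw [Module.finrank_fintype_fun_eq_card, Fintype.card_sum, Fintype.card_fin]
      ring
    obtain ⟨f, hf0, -⟩ := S.exists_perp (k := 0) (by rw [hdim]; omega) (fun i => i.elim0)
    obtain ⟨e, he⟩ := S.exists_one hf0
    refine S.two_quot (m := 24) two_sq ?_ he
    intro g hg v
    obtain ⟨v0, hv0⟩ := S.exists_moved hg
    exact S.allT' (by rw [hdim]; omega) hv0 v
  · exact two_psp_big hn F hF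

end Vale.Agent.P318.R2.H678
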