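import Vale.Agent.P318.R2.H678.SympFour

/-!
# Symplectic groups modulo the center: two subgroups of products of few conjugates
-/

namespace Vale.Agent.P318.R2.H678

open Vale.Agent.P318.R2.H402 (Pr Two)

variable {G K V : Type*} [Group G] [Field K] [AddCommGroup V] [Module K V]

namespace Sy

variable (S : Sy G K V)

/-- An element for which every vector is an eigenvector is central. -/
theorem central_of_eigen {g : G} (h : ∀ v, ∃ c : K, S.r g v = c • v) :
    g ∈ Subgroup.center G := by
  obtain ⟨a, ha⟩ := LinearMap.exists_eq_smul_id_of_forall_notLinearIndependent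
    (f := S.r g) (by
      intro v hli
      obtain ⟨c, hc⟩ := h v
      rw [hc, LinearIndependent.pair_iff] at hli
      have := hli c (-1) (by rw [neg_smul, one_smul, add_neg_cancel])
      exact neg_ne_zero.2 one_ne_zero this.2)
  rw [Subgroup.mem_center_iff]
  intro k
  apply S.inj
  rw [map_mul, map_mul, ha]
  ext x
  simp

theorem exists_moved {g : G} (hg : g ∉ Subgroup.center G) :
    ∃ v, ∀ c : K, S.r g v ≠ c • v := by
  by_contra hc
  push Not at hc
  exact hg (S.central_of_eigen hc)

theorem t_not_central {e f : V} (hef : S.B e f = 1) : S.t e 1 ∉ Subgroup.center G := by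
  intro hc
  have h1 := S.t_conj (S.t f 1) e 1
  rw [Subgroup.mem_center_iff] at hc
  rw [hc, mul_inv_cancel_right] at h1
  have h2 := congrArg (fun k => S.B (S.r k e) e) h1
  simp only [S.t_apply, map_add, map_smul, LinearMap.add_apply, LinearMap.smul_apply, S.alt, hef,
    smul_eq_mul, mul_zero, mul_one, add_zero, zero_add] at h2
  have h3 : S.B f e = -1 := by rw [S.neg, hef]
  rw [h3] at h2
  norm_num at h2

/-- The main statement on the level of the group. -/
theorem two_quot [IsSimpleGroup (G ⧸ Subgroup.center G)] {m : ℕ}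
    (sq : ∀ a : K, ∃ c d : K, a = c ^ 2 + d ^ 2)
    (hT : ∀ g : G, g ∉ Subgroup.center G → ∀ v : V, Pr m g (S.t v 1))
    {e f : V} (hef : S.B e f = 1) : Two (G ⧸ Subgroup.center G) (4 * m) := by
  set q := QuotientGroup.mk' (Subgroup.center G) with hq
  have hqs : Function.Surjective q := QuotientGroup.mk'_surjective _
  have he : e ≠ 0 := by
    intro h0
    rw [h0, map_zero] at hef
    exact zero_ne_one hef
  refine ⟨(S.Rad e).map q, (S.Rad f).map q, ?_, ?_⟩
  · rw [← Subgroup.map_sup]
    set H := S.Rad e ⊔ S.Rad f with hH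
    have h1 : S.Rad e ≤ H := le_sup_left
    have h2 : S.Rad f ≤ H := le_sup_right
    have h3 : Subgroup.normalClosure {S.t e 1} ≤ H := by
      unfold Subgroup.normalClosure
      rw [Subgroup.closure_le]
      intro x hx
      obtain ⟨a, ha, hax⟩ := Group.mem_conjugatesOfSet_iff.1 hx
      rw [Set.mem_singleton_iff] at ha
      subst ha
      obtain ⟨c, rfl⟩ := isConj_iff.1 hax
      obtain ⟨h, hh, hhe⟩ := S.orbit hef h1 h2 (S.r_ne c he)
      rw [S.t_conj, ← hhe, ← S.t_conj]
      exact H.mul_mem (H.mul_mem hh (h1 (S.t_mem_Rad e 1))) (H.inv_mem hh)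
    have h4 : ((Subgroup.normalClosure {S.t e 1}).map q).Normal :=
      Subgroup.Normal.map Subgroup.normalClosure_normal q hqs
    rcases h4.eq_bot_or_eq_top with h5 | h5
    · exfalso
      have h6 : q (S.t e 1) ∈ (Subgroup.normalClosure {S.t e 1}).map q :=
        Subgroup.mem_map_of_mem q (Subgroup.subset_normalClosure (Set.mem_singleton _))
      rw [h5, Subgroup.mem_bot] at h6
      apply S.t_not_central hef
      exact (QuotientGroup.eq_one_iff _).1 h6
    · rw [eq_top_iff, ← h5]
      exact Subgroup.map_mono h3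
  · intro x hx y hy
    obtain ⟨g, rfl⟩ := hqs x
    have hg : g ∉ Subgroup.center G := by
      intro h0
      exact hx ((QuotientGroup.eq_one_iff _).2 h0)
    have key : ∀ k : V, ∀ y ∈ (S.Rad k).map q, Pr (4 * m) (q g) y := by
      rintro k _ ⟨_, ⟨u, b, -, rfl⟩, rfl⟩
      exact (S.allE sq (hT g hg) k u b).map q
    rcases hy with hy | hy
    · exact key e y hy
    · exact key f y hy

/-- More than two elements in the field. -/
theorem two_quot_big [IsSimpleGroup (G ⧸ Subgroup.center G)]
    (sq : ∀ a : K, ∃ c d : K, a = c ^ 2 + d ^ 2)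
    (hp : ∀ v w : V, ∃ u, u ≠ 0 ∧ S.B u v = 0 ∧ S.B u w = 0)
    {l : K} (hl0 : l ≠ 0) (hl1 : 1 + l ≠ 0) {e f : V} (hef : S.B e f = 1) :
    Two (G ⧸ Subgroup.center G) 96 := by
  refine S.two_quot (m := 24) sq ?_ hef
  intro g hg v
  obtain ⟨v0, hv0⟩ := S.exists_moved hg
  exact S.allT hp hl0 hl1 hv0 v

end Sy

end Vale.Agent.P318.R2.H678
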