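import Vale.Agent.P180.R2.H589.Un.Frm

/-!
# Unitary transvections over the field with four elements: basic computations
-/

namespace Vale.Agent.P318.R2.H678

open Vale.Agent.P180.R2.H589.Un (Hm)

/-- A faithful action of `G` by isometries of a nondegenerate hermitian form over the field with
four elements, such that all transvections come from elements of `G`. -/
structure U2 (G K V : Type*) [Group G] [Field K] [AddCommGroup V] [Module K V] where
  /-- the action -/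
  r : G →* Module.End K V
  inj : Function.Injective r
  /-- the involution -/
  θ : K ≃+* K
  /-- the form -/
  h : V → V → K
  hB : Hm θ h
  pres : ∀ g x y, h (r g x) (r g y) = h x y
  two : (2 : K) = 0
  nm : ∀ c : K, c ≠ 0 → c * θ c = 1
  /-- an element of trace one -/
  w : K
  tw : w + θ w = 1
  fx : ∀ c : K, θ c = c → c = 0 ∨ c = 1
  /-- the transvections -/
  t : V → K → G
  t_apply : ∀ a c, h a a = 0 → c + θ c = 0 → ∀ x, r (t a c) x = x + (c * h x a) • a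

variable {G K V : Type*} [Group G] [Field K] [AddCommGroup V] [Module K V]

namespace U2

variable (S : U2 G K V)

theorem ext {g h : G} (H : ∀ x, S.r g x = S.r h x) : g = h :=
  S.inj (LinearMap.ext H)

theorem r_mul (g h : G) (x : V) : S.r (g * h) x = S.r g (S.r h x) := by
  rw [map_mul]; rfl

theorem r_one (x : V) : S.r 1 x = x := by
  rw [map_one]; rfl

theorem r_inv (g : G) (x : V) : S.r g⁻¹ (S.r g x) = x := by
  rw [← S.r_mul, inv_mul_cancel, S.r_one]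

theorem r_inv' (g : G) (x : V) : S.r g (S.r g⁻¹ x) = x := by
  rw [← S.r_mul, mul_inv_cancel, S.r_one]

theorem r_ne (g : G) {x : V} (hx : x ≠ 0) : S.r g x ≠ 0 := by
  intro h
  apply hx
  rw [← S.r_inv g x, h, map_zero]

theorem comm0 {x y : V} (h : S.h x y = 0) : S.h y x = 0 := S.hB.swap h

theorem comm_ne {x y : V} (h : S.h x y ≠ 0) : S.h y x ≠ 0 := S.hB.swap_ne h

theorem pres' (g : G) (x y : V) : S.h x (S.r g y) = S.h (S.r g⁻¹ x) y := by
  rw [← S.pres g (S.r g⁻¹ x) y, S.r_inv']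

include S in
theorem neg_one : (-1 : K) = 1 := by linear_combination -S.two

theorem tr1 : (1 : K) + S.θ 1 = 0 := by
  rw [map_one]; linear_combination S.two

theorem trn : (-1 : K) + S.θ (-1) = 0 := by
  rw [map_neg, map_one]; linear_combination -S.two

theorem θθ (c : K) : S.θ (S.θ c) = c := by
  by_cases hc : c = 0
  · rw [hc, map_zero, map_zero]
  · have h1 := S.nm c hc
    have h2 := S.nm (S.θ c) ((map_ne_zero S.θ).2 hc)
    have h3 : S.θ c ≠ 0 := (map_ne_zero S.θ).2 hc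
    apply mul_left_cancel₀ h3
    rw [h2, mul_comm, h1]

theorem t_add {a : V} (ha : S.h a a = 0) {c d : K} (hc : c + S.θ c = 0) (hd : d + S.θ d = 0) :
    S.t a c * S.t a d = S.t a (c + d) := by
  apply S.ext
  intro x
  rw [S.r_mul, S.t_apply a d ha hd, S.t_apply a c ha hc,
    S.t_apply a (c + d) ha (by rw [map_add]; linear_combination hc + hd), S.hB.addl, S.hB.sml, ha]
  module

theorem t_zero {a : V} (ha : S.h a a = 0) : S.t a 0 = 1 := by
  apply S.ext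
  intro x
  rw [S.t_apply a 0 ha (by rw [map_zero, add_zero]), zero_mul, zero_smul, add_zero, S.r_one]

theorem t_inv {a : V} (ha : S.h a a = 0) {c : K} (hc : c + S.θ c = 0) :
    (S.t a c)⁻¹ = S.t a (-c) := by
  symm
  apply eq_inv_of_mul_eq_one_left
  rw [S.t_add ha (by rw [map_neg]; linear_combination -hc) hc, neg_add_cancel, S.t_zero ha]

theorem t_neg_one (a : V) : S.t a (-1) = S.t a 1 := by rw [S.neg_one]

theorem t_sq {a : V} (ha : S.h a a = 0) : (S.t a 1)⁻¹ = S.t a 1 := by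
  rw [S.t_inv ha S.tr1, S.neg_one]

theorem iso_smul {a : V} (ha : S.h a a = 0) (c : K) : S.h (c • a) (c • a) = 0 := by
  rw [S.hB.sml, S.hB.smr, ha, mul_zero, mul_zero]

theorem t_smul {a : V} (ha : S.h a a = 0) {c : K} (hc : c ≠ 0) : S.t (c • a) 1 = S.t a 1 := by
  apply S.ext
  intro x
  rw [S.t_apply _ _ (S.iso_smul ha c) S.tr1, S.t_apply _ _ ha S.tr1, S.hB.smr, smul_smul]
  congr 2
  linear_combination (S.h x a) * S.nm c hc

theorem t_conj (g : G) {a : V} (ha : S.h a a = 0) {c : K} (hc : c + S.θ c = 0) :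
    g * S.t a c * g⁻¹ = S.t (S.r g a) c := by
  apply S.ext
  intro x
  rw [S.r_mul, S.r_mul, S.t_apply a c ha hc, S.t_apply _ c (by rw [S.pres, ha]) hc, map_add,
    map_smul, S.r_inv', S.pres']

/-- A commutator with a transvection. -/
theorem t_comm (g : G) {v : V} (hv : S.h v v = 0) :
    g * (S.t v 1 * g⁻¹ * (S.t v 1)⁻¹) = S.t (S.r g v) 1 * S.t v 1 := by
  rw [← S.t_conj g hv S.tr1, S.t_sq hv]
  group

/-- moving an isotropic line by a transvection -/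
theorem move {v w : V} (hv : S.h v v = 0) (hw : S.h w w = 0) (h : S.h v w ≠ 0) :
    ∃ (g : G) (l : K), l ≠ 0 ∧ S.r g v = l • w ∧
      ∀ x, S.h x v = 0 → S.h x w = 0 → S.r g x = x := by
  obtain ⟨l, hl⟩ : ∃ l, l = S.θ.symm (S.h v w)⁻¹ := ⟨_, rfl⟩
  have hl0 : l ≠ 0 := by
    rw [hl]
    exact (map_ne_zero S.θ.symm).2 (inv_ne_zero h)
  have h1 : S.h v (l • w) = 1 := by
    rw [S.hB.smr, hl, S.θ.apply_symm_apply, inv_mul_cancel₀ h]
  have h2 : S.h (l • w) v = 1 := by rw [S.hB.herm v (l • w), h1, map_one]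
  have h3 : S.h (l • w) (l • w) = 0 := S.iso_smul hw l
  have ha : S.h (l • w - v) (l • w - v) = 0 := by
    rw [S.hB.subl, S.hB.subr, S.hB.subr, h1, h2, h3, hv]
    linear_combination -S.two
  refine ⟨S.t (l • w - v) 1, l, hl0, ?_, ?_⟩
  · rw [S.t_apply _ _ ha S.tr1, S.hB.subr, h1, hv]
    module
  · intro x hx1 hx2
    rw [S.t_apply _ _ ha S.tr1, S.hB.subr, S.hB.smr, hx1, hx2]
    module

/-- Correction of a vector to an isotropic one. -/
theorem fix_iso {a z : V} (ha : S.h a a = 0) (hz : S.h a z ≠ 0) :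
    ∃ c : K, S.h (z + c • a) (z + c • a) = 0 := by
  refine ⟨-(S.h z z * S.w / S.h a z), ?_⟩
  rw [S.hB.addl, S.hB.addr, S.hB.addr, S.hB.sml, S.hB.sml, S.hB.smr, S.hB.smr, ha,
    S.hB.herm a z, map_neg, map_div₀, map_mul, S.hB.fix]
  have h3 : S.θ (S.h a z) ≠ 0 := (map_ne_zero S.θ).2 hz
  have h4 : S.h z z * S.w / S.h a z * S.h a z = S.h z z * S.w := div_mul_cancel₀ _ hz
  have h5 : S.h z z * S.θ S.w / S.θ (S.h a z) * S.θ (S.h a z) = S.h z z * S.θ S.w :=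
    div_mul_cancel₀ _ h3
  linear_combination -h4 - h5 - (S.h z z) * S.tw

theorem exists_sep {e v : V} (he : e ≠ 0) (hv : ∀ c : K, v ≠ c • e) :
    ∃ u, S.h u e = 0 ∧ S.h u v ≠ 0 := by
  obtain ⟨f', hf'⟩ := S.hB.exists_ne he
  obtain ⟨f, hf⟩ : ∃ f, S.h f e ≠ 0 := ⟨f', S.comm_ne hf'⟩
  by_contra hc
  push Not at hc
  apply hv (S.θ.symm (S.h f v / S.h f e))
  rw [← sub_eq_zero]
  apply S.hB.nd
  intro x
  apply S.comm0
  have h1 := hc (x - (S.h x e / S.h f e) • f) (by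
    rw [S.hB.subl, S.hB.sml, div_mul_cancel₀ _ hf, sub_self])
  rw [S.hB.subl, S.hB.sml] at h1
  rw [S.hB.subr, S.hB.smr, S.θ.apply_symm_apply, ← h1]
  field_simp

theorem exists_ne' {e : V} (he : e ≠ 0) : ∃ f, S.h f e ≠ 0 := by
  obtain ⟨f', hf'⟩ := S.hB.exists_ne he
  exact ⟨f', S.comm_ne hf'⟩

theorem exists_both {a b : V} (ha : a ≠ 0) (hb : b ≠ 0) : ∃ u, S.h u a ≠ 0 ∧ S.h u b ≠ 0 := by
  obtain ⟨u, hu⟩ := S.exists_ne' ha
  obtain ⟨u', hu'⟩ := S.exists_ne' hb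
  by_cases h1 : S.h u b = 0
  · by_cases h2 : S.h u' a = 0
    · refine ⟨u + u', ?_, ?_⟩
      · rwa [S.hB.addl, h2, add_zero]
      · rwa [S.hB.addl, h1, zero_add]
    · exact ⟨u', h2, hu'⟩
  · exact ⟨u, hu, h1⟩

theorem exists_both_perp {y a b : V} (hy : y ≠ 0) (ha : ∀ c : K, a ≠ c • y)
    (hb : ∀ c : K, b ≠ c • y) : ∃ u, S.h u y = 0 ∧ S.h u a ≠ 0 ∧ S.h u b ≠ 0 := by
  obtain ⟨u, hu0, hu⟩ := S.exists_sep hy ha
  obtain ⟨u', hu0', hu'⟩ := S.exists_sep hy hb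
  by_cases h1 : S.h u b = 0
  · by_cases h2 : S.h u' a = 0
    · refine ⟨u + u', ?_, ?_, ?_⟩
      · rw [S.hB.addl, hu0, hu0', add_zero]
      · rwa [S.hB.addl, h2, add_zero]
      · rwa [S.hB.addl, h1, zero_add]
    · exact ⟨u', hu0', h2, hu'⟩
  · exact ⟨u, hu0, hu, h1⟩

/-- an isotropic vector orthogonal to neither of two isotropic vectors -/
theorem exists_mid {a b : V} (ha0 : a ≠ 0) (hb0 : b ≠ 0) (ha : S.h a a = 0)
    (hab : S.h a b = 0) : ∃ z, S.h z z = 0 ∧ S.h z a ≠ 0 ∧ S.h z b ≠ 0 := by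
  obtain ⟨z, h1, h2⟩ := S.exists_both ha0 hb0
  obtain ⟨c, hc⟩ := S.fix_iso ha (S.comm_ne h1)
  refine ⟨z + c • a, hc, ?_, ?_⟩
  · rwa [S.hB.addl, S.hB.sml, ha, mul_zero, add_zero]
  · rwa [S.hB.addl, S.hB.sml, hab, mul_zero, add_zero]

/-- Transitivity on isotropic lines. -/
theorem trans_one {v w : V} (hv0 : v ≠ 0) (hw0 : w ≠ 0) (hv : S.h v v = 0) (hw : S.h w w = 0) :
    ∃ (g : G) (l : K), l ≠ 0 ∧ S.r g v = l • w := by
  by_cases h0 : S.h v w = 0
  · obtain ⟨z, hz, h1, h2⟩ := S.exists_mid hv0 hw0 hv h0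
    obtain ⟨g, l, hl, hg, -⟩ := S.move hv hz (S.comm_ne h1)
    obtain ⟨g', l', hl', hg', -⟩ := S.move hz hw h2
    exact ⟨g' * g, l * l', mul_ne_zero hl hl', by rw [S.r_mul, hg, map_smul, hg', smul_smul]⟩
  · obtain ⟨g, l, hl, hg, -⟩ := S.move hv hw h0
    exact ⟨g, l, hl, hg⟩

/-- Transitivity on pairs of orthogonal isotropic lines. -/
theorem trans_two {y y' a b : V} (hy : y ≠ 0) (hy' : y' ≠ 0) (hyi : S.h y y = 0)
    (hyi' : S.h y' y' = 0) (hai : S.h a a = 0) (hbi : S.h b b = 0) (ha0 : S.h a y = 0)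
    (hb0 : S.h b y' = 0) (ha : ∀ c : K, a ≠ c • y) (hb : ∀ c : K, b ≠ c • y') :
    ∃ (g : G) (l m : K), l ≠ 0 ∧ m ≠ 0 ∧ S.r g y = l • y' ∧ S.r g a = m • b := by
  obtain ⟨g, l, hl, hg⟩ := S.trans_one hy hy' hyi hyi'
  have h0 : S.h (S.r g a) (S.r g a) = 0 := by rw [S.pres, hai]
  have h1 : S.h (S.r g a) y' = 0 := by
    have h2 : S.h (S.r g a) (S.r g y) = 0 := by rw [S.pres, ha0]
    rw [hg, S.hB.smr] at h2
    exact (mul_eq_zero.1 h2).resolve_left ((map_ne_zero S.θ).2 hl)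
  have h2 : ∀ c : K, S.r g a ≠ c • y' := by
    intro c hc
    apply ha (c * l⁻¹)
    have h3 : y' = l⁻¹ • S.r g y := by rw [hg, smul_smul, inv_mul_cancel₀ hl, one_smul]
    rw [← S.r_inv g a, hc, h3, smul_smul, map_smul, S.r_inv]
  by_cases h3 : S.h (S.r g a) b = 0
  · obtain ⟨z0, hz0, hz1, hz2⟩ := S.exists_both_perp hy' h2 hb
    obtain ⟨c, hc⟩ := S.fix_iso h0 (S.comm_ne hz1)
    set z := z0 + c • S.r g a with hz
    have e1 : S.h z y' = 0 := by rw [hz, S.hB.addl, S.hB.sml, hz0, h1, mul_zero, add_zero]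
    have e2 : S.h z (S.r g a) ≠ 0 := by
      rw [hz, S.hB.addl, S.hB.sml, h0, mul_zero, add_zero]; exact hz1
    have e3 : S.h z b ≠ 0 := by
      rw [hz, S.hB.addl, S.hB.sml, h3, mul_zero, add_zero]; exact hz2
    obtain ⟨g1, l1, hl1, hg1, hf1⟩ := S.move h0 hc (S.comm_ne e2)
    obtain ⟨g2, l2, hl2, hg2, hf2⟩ := S.move hc hbi e3
    refine ⟨g2 * (g1 * g), l, l1 * l2, hl, mul_ne_zero hl1 hl2, ?_, ?_⟩
    · rw [S.r_mul, S.r_mul, hg, map_smul, hf1 y' (S.comm0 h1) (S.comm0 e1), map_smul,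
        hf2 y' (S.comm0 e1) (S.comm0 hb0)]
    · rw [S.r_mul, S.r_mul, hg1, map_smul, hg2, smul_smul]
  · obtain ⟨g1, l1, hl1, hg1, hf1⟩ := S.move h0 hbi h3
    refine ⟨g1 * g, l, l1, hl, hl1, ?_, ?_⟩
    · rw [S.r_mul, hg, map_smul, hf1 y' (S.comm0 h1) (S.comm0 hb0)]
    · rw [S.r_mul, hg1]

end U2

end Vale.Agent.P318.R2.H678
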